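import Crest.Agent.X277.BD.Map
import Crest.Agent.X262.Bub96.Defs

/-!
# Row 262, road B (helper90), part 0: targets, configurations, data

* `Tgt io A`     : multihomogeneous equations `F a` of multidegree `k a` in a product of projective
  spaces (factors `J`, coordinates `io j`);  `ev`, `jac`, `Nm` (normal space = range of the
  Jacobian), `On`;  `Syz T` a syzygy matrix, `Reg`, `Good`, `Smo`;
* `Cfg io I E`   : points `y q` and subspaces `V κ ≤ (I → E)` of values of sections of `O(κ)`;
  `map` (field extension), `gau` (gauge), `red` (reduction along a place), `res` (fewer points);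
* `sv, ea, dv, Eb` : the section, the twisting lines, the zero divisor, the obstruction space;
* `Dat io d I K` : a map of multidegree `d` from `P^1_K` with points; `cfg`, `Nrm`, `Eqv`, `Univ`.
-/

set_option autoImplicit false
set_option linter.unusedSectionVars false

noncomputable section

namespace Crest.Agent.X262.Vb

open Crest.Agent.X277 Crest.Agent.X277.BD Polynomial
open Crest.Agent.X262.Bub96 (hv Tr)
open Crest.Agent.X262.Bub96.Tr (dot)

variable {J : Type} [Fintype J] [DecidableEq J] {io : J → Type} [∀ j, Fintype (io j)]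
  [∀ j, DecidableEq (io j)] {A : Type} [Fintype A]

/-- homogeneous coordinates of a point of the product of projective spaces -/
abbrev Pnt (io : J → Type) (E : Type) : Type := (j : J) → io j → E

/-- the variables -/
abbrev Vr (io : J → Type) : Type := Σ j, io j

/-- no factor is zero -/
def NZ {E : Type} [Field E] (y : Pnt io E) : Prop := ∀ j, ∃ i, y j i ≠ 0

/-- multihomogeneous of multidegree `κ` -/
def MH (q : MvPolynomial (Vr io) ℂ) (κ : J → ℕ) : Prop :=
  q.IsWeightedHomogeneous (fun v => (Pi.single v.1 1 : J → ℕ)) κ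

/-- value of a polynomial at a point -/
def pv {E : Type} [Field E] [Algebra ℂ E] (y : Pnt io E) (q : MvPolynomial (Vr io) ℂ) : E :=
  MvPolynomial.aeval (fun v : Vr io => y v.1 v.2) q

/-- a target: equations in a product of projective spaces -/
structure Tgt (io : J → Type) (A : Type) where
  /-- the equations -/
  F : A → MvPolynomial (Vr io) ℂ
  /-- their multidegrees -/
  k : A → J → ℕ
  hom : ∀ a, MH (F a) (k a)

namespace Tgt

variable (T : Tgt io A) {E : Type} [Field E] [Algebra ℂ E]

/-- the point satisfies the equations -/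
def On (y : Pnt io E) : Prop := ∀ a, pv y (T.F a) = 0

/-- the Jacobian at a point -/
def jac (y : Pnt io E) : (Vr io → E) →ₗ[E] (A → E) :=
  Matrix.toLin' (Matrix.of fun a v => pv y (MvPolynomial.pderiv v (T.F a)))

/-- the normal space -/
def Nm (y : Pnt io E) : Submodule E (A → E) := LinearMap.range (T.jac y)

end Tgt

/-- a matrix of multihomogeneous syzygies -/
structure Syz (T : Tgt io A) where
  /-- number of rows -/
  r : ℕ
  /-- the matrix -/
  ρ : Fin r → A → MvPolynomial (Vr io) ℂ
  /-- the multidegree of the row -/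
  e : Fin r → J → ℕ
  hom : ∀ b a, ρ b a = 0 ∨ ∃ κ, κ + T.k a = e b ∧ MH (ρ b a) κ
  syz : ∀ b, ∑ a, ρ b a * T.F a = 0

/-- `y` is a smooth point of codimension `c` of the scheme defined by the equations -/
def Syz.Reg {T : Tgt io A} (S : Syz T) (c : ℕ) {E : Type} [Field E] [Algebra ℂ E] (y : Pnt io E) :
    Prop :=
  Module.finrank E (T.Nm y) = c ∧ ∀ σ : A → E, (∀ b, ∑ a, pv y (S.ρ b a) * σ a = 0) → σ ∈ T.Nm y

/-- all genus zero maps of multidegree `d` to the target lie in the smooth locus -/
def Good (T : Tgt io A) (c : ℕ) (d : J → ℕ) : Prop :=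
  (∃ a, T.F a ≠ 0) ∧ ∃ S : Syz T, ∀ (E : Type) [Field E] [Algebra ℂ E] [IsAlgClosed E]
    (t : Tr E J io), t.OK → t.deg = d → (∀ x, T.On (t.ev x)) → ∀ x, S.Reg c (t.ev x)

/-- the target is smooth of codimension `c` -/
def Smo (T : Tgt io A) (c : ℕ) : Prop :=
  (∃ a, T.F a ≠ 0) ∧ ∃ S : Syz T, ∀ (E : Type) [Field E] [Algebra ℂ E] (y : Pnt io E),
    NZ y → T.On y → S.Reg c y

/-! ### lines, sizes, reductions -/

section Lines

variable {E : Type} [Field E] [Algebra ℂ E] {P : Type} [Fintype P]

/-- `O(1)` of the factor `j` at the point `y` -/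
def ln (y : Pnt io E) (j : J) : BD ℂ E := mxf ℂ (y j)

/-- `O(κ)` at the point `y` -/
def lw (κ : J → ℕ) (y : Pnt io E) : BD ℂ E := ∑ j, κ j • ln y j

open Classical in
/-- the size of a vector in the sum of the lines `a x`; the saturated line spanned by `u` is
`- sz u a` -/
def sz (u : P → E) (a : P → BD ℂ E) : BD ℂ E :=
  if h : (Finset.univ.filter fun x => u x ≠ 0).Nonempty then
    (Finset.univ.filter fun x => u x ≠ 0).sup' h fun x => pr ℂ (u x) - a x else 0

/-- the coordinates are primitive at `V` -/
def Prim (V : RZ ℂ E) (y : Pnt io E) : Prop := ∀ j, (∀ i, y j i ∈ V.1) ∧ ∃ i, V.v (y j i) = 1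

variable {E' : Type} [Field E'] [Algebra ℂ E']

/-- reduction of a point along a place (coordinatewise, for primitive coordinates) -/
def redP (p : Pl ℂ E ℂ E') (y : Pnt io E) : Pnt io E' := fun j i => p.r (y j i)

/-- reduction of a subspace along a place -/
def redS (p : Pl ℂ E ℂ E') (U : Submodule E (P → E)) : Submodule E' (P → E') :=
  Submodule.span E' {w | ∃ u ∈ U, (∀ x, u x ∈ p.V.1) ∧ w = fun x => p.r (u x)}

/-- extension of scalars of a subspace -/
def mapS (α : E →ₐ[ℂ] E') (U : Submodule E (P → E)) : Submodule E' (P → E') :=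
  Submodule.span E' {w | ∃ u ∈ U, w = fun x => α (u x)}

/-- coordinatewise scaling of a subspace -/
def sclS (c : P → E) (U : Submodule E (P → E)) : Submodule E (P → E) :=
  U.map (LinearMap.pi fun x => c x • LinearMap.proj x)

end Lines

/-! ### configurations -/

/-- points of the ambient space and the spaces of values of sections at these points -/
structure Cfg (io : J → Type) (I : Type) (E : Type) [Field E] where
  /-- the points -/
  y : I → Pnt io E
  /-- the values of the sections of `O(κ)` -/
  V : (J → ℕ) → Submodule E (I → E)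

namespace Cfg

variable {I : Type} [Fintype I] {E E' : Type} [Field E] [Algebra ℂ E] [Field E'] [Algebra ℂ E']

/-- all points are points -/
def NZ (z : Cfg io I E) : Prop := ∀ q, Vb.NZ (z.y q)

/-- extension of the ground field -/
def map (α : E →ₐ[ℂ] E') (z : Cfg io I E) : Cfg io I E' where
  y q j i := α (z.y q j i)
  V κ := mapS α (z.V κ)

/-- rescaling of the homogeneous coordinates (`c q j ≠ 0`) -/
def gau (c : I → J → E) (z : Cfg io I E) : Cfg io I E where
  y q j i := c q j * z.y q j i
  V κ := sclS (fun q => ∏ j, c q j ^ κ j) (z.V κ)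

/-- the scalars which make the coordinates primitive at `V` -/
def nrm (V : RZ ℂ E) (z : Cfg io I E) : I → J → E := fun q j => ((ln (z.y q) j).gen V)⁻¹

/-- coordinatewise reduction (for primitive coordinates) -/
def red0 (p : Pl ℂ E ℂ E') (z : Cfg io I E) : Cfg io I E' where
  y q := redP p (z.y q)
  V κ := redS p (z.V κ)

/-- reduction along a place -/
def red (p : Pl ℂ E ℂ E') (z : Cfg io I E) : Cfg io I E' := (z.gau (z.nrm p.V)).red0 p

/-- restriction to a subfamily of points -/
def res {I' : Type} (g : I' → I) (z : Cfg io I E) : Cfg io I' E where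
  y q := z.y (g q)
  V κ := (z.V κ).map (LinearMap.funLeft E E g)

variable (T : Tgt io A) (z : Cfg io I E)

/-- the section given by the equations -/
def sv : A × I → E := fun x => pv (z.y x.2) (T.F x.1)

/-- the twisting lines -/
def ea : A × I → BD ℂ E := fun x => lw (T.k x.1) (z.y x.2)

/-- the divisor of zeros of the section -/
def dv : BD ℂ E := -sz (z.sv T) (z.ea T)

/-- the ambient bundle -/
def Vt : Submodule E (A × I → E) :=
  ⨅ a, (z.V (T.k a)).comap (LinearMap.funLeft E E fun q => (a, q))

/-- the obstruction space: sections with values in the normal spaces -/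
def Eb : Submodule E (A × I → E) :=
  z.Vt T ⊓ ⨅ q, (T.Nm (z.y q)).comap (LinearMap.funLeft E E fun a => (a, q))

/-- all points lie on the target -/
def On : Prop := ∀ q, T.On (z.y q)

end Cfg

/-! ### maps from the projective line -/

/-- coprime binary forms -/
def Cp {K : Type} [Field K] (d : J → ℕ) (f : (j : J) → io j → K[X]) : Prop :=
  (∀ j i, (f j i).natDegree ≤ d j) ∧ (∀ j, ∃ i, (f j i).coeff (d j) ≠ 0) ∧
    ∀ j, Ideal.span (Set.range (f j)) = ⊤

/-- a map `P^1_K → ∏ P(io j)` of multidegree `d` and points of `P^1(K)` -/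
structure Dat (io : J → Type) (d : J → ℕ) (I : Type) (K : Type) [Field K] where
  /-- the forms -/
  f : (j : J) → io j → K[X]
  /-- the points -/
  x : I → Option K
  cp : Cp d f

/-- homogeneous coordinates of a point of the projective line -/
def hx {K : Type} [Field K] : Option K → Fin 2 → K
  | none => ![1, 0]
  | some t => ![t, 1]

/-- linear substitution in a binary form of degree `d` -/
def mob {K : Type} [Field K] (d : ℕ) (g : Matrix (Fin 2) (Fin 2) K) (f : K[X]) : K[X] :=
  ∑ l ∈ Finset.range (d + 1),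
    C (f.coeff l) * (C (g 0 0) * X + C (g 0 1)) ^ l * (C (g 1 0) * X + C (g 1 1)) ^ (d - l)

theorem Cp.map {K L : Type} [Field K] [Field L] {d : J → ℕ} {f : (j : J) → io j → K[X]}
    (h : Cp d f) (α : K →+* L) : Cp d fun j i => (f j i).map α := by
  refine ⟨fun j i => natDegree_map_le.trans (h.1 j i), fun j => ?_, fun j => ?_⟩
  · obtain ⟨i, hi⟩ := h.2.1 j
    exact ⟨i, by rw [coeff_map]; exact (map_ne_zero α).2 hi⟩
  · have h1 := congrArg (Ideal.map (mapRingHom α)) (h.2.2 j)
    rwa [Ideal.map_span, Ideal.map_top, ← Set.range_comp] at h1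

namespace Dat

variable {d : J → ℕ} {I : Type} {K L : Type} [Field K] [Algebra ℂ K] [Field L] [Algebra ℂ L]

/-- extension of the ground field -/
def map (α : K →ₐ[ℂ] L) (ξ : Dat io d I K) : Dat io d I L where
  f j i := (ξ.f j i).map (α : K →+* L)
  x q := (ξ.x q).map α
  cp := ξ.cp.map _

/-- a subfamily of points -/
def res {I' : Type} (g : I' → I) (ξ : Dat io d I K) : Dat io d I' K := ⟨ξ.f, fun q => ξ.x (g q), ξ.cp⟩

/-- the image of a point of the line -/
def pt (ξ : Dat io d I K) (t : Option K) : Pnt io K := fun j i => hv (d j) (ξ.f j i) t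

/-- evaluation of binary forms of degree `n` at the points -/
def evl (ξ : Dat io d I K) (n : ℕ) : K[X] →ₗ[K] (I → K) where
  toFun σ q := hv n σ (ξ.x q)
  map_add' a b := by
    funext q
    rcases h : ξ.x q with _ | t <;> simp [h, hv]
  map_smul' c a := by
    funext q
    rcases h : ξ.x q with _ | t <;> simp [h, hv]

/-- the configuration of a datum -/
def cfg (ξ : Dat io d I K) : Cfg io I K where
  y q := ξ.pt (ξ.x q)
  V κ := (degreeLE K (dot κ d : ℕ)).map (ξ.evl (dot κ d))

/-- the points are norming for the sections of `O(κ)`, over every valued extension -/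
def Nrm (ξ : Dat io d I K) (κ : J → ℕ) : Prop :=
  ∀ (L : Type) [Field L] [Algebra ℂ L] (α : K →ₐ[ℂ] L) (W : RZ ℂ L) (σ : L[X]),
    σ.natDegree ≤ dot κ d →
    (∀ q, W.v (hv (dot κ d) σ ((ξ.map α).x q)) ≤ (lw κ ((ξ.map α).pt ((ξ.map α).x q))).val W) →
    ∀ t, W.v (hv (dot κ d) σ t) ≤ (lw κ ((ξ.map α).pt t)).val W

/-- norming in all multidegrees up to `N` -/
def NrmUp (ξ : Dat io d I K) (N : ℕ) : Prop := ∀ κ : J → ℕ, (∀ j, κ j ≤ N) → ξ.Nrm κ

/-- the same datum up to a change of coordinate on the line and scalars -/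
def Eqv (ξ η : Dat io d I K) : Prop :=
  ∃ (g : Matrix (Fin 2) (Fin 2) K) (c : J → K), g.det ≠ 0 ∧ (∀ j, c j ≠ 0) ∧
    (∀ j i, η.f j i = C (c j) * mob (d j) g (ξ.f j i)) ∧
    ∀ q, ∃ u : K, g.mulVec (hx (η.x q)) = u • hx (ξ.x q)

/-- the moduli of a normalised datum: ratios of coefficients, coordinates of the points -/
def crd (ξ : Dat io d I K) : Set K :=
  {t | (∃ j i i' l l', t = (ξ.f j i).coeff l / (ξ.f j i').coeff l') ∨ ∃ q, ξ.x q = some t}

end Dat

/-- the dimension of the space of maps with `n` marked points -/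
def mdim (io : J → Type) [∀ j, Fintype (io j)] (d : J → ℕ) (n : ℕ) : ℕ :=
  (∑ j, (Fintype.card (io j) * (d j + 1) - 1)) + n - 3

/-- the universal datum: three points are `∞, 0, 1`, the moduli generate the field, and the
transcendence degree is the number of moduli -/
def Dat.Univ {d : J → ℕ} {M : Type} [Fintype M] {K : Type} [Field K] [Algebra ℂ K]
    (ξ : Dat io d M K) : Prop :=
  (∃ a b c, ξ.x a = none ∧ ξ.x b = some 0 ∧ ξ.x c = some 1) ∧
    IntermediateField.adjoin ℂ ξ.crd = ⊤ ∧
    Algebra.trdeg ℂ K = (mdim io d (Fintype.card M) : ℕ)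

theorem nz_ev {E : Type} [Field E] (t : Tr E J io) (ht : t.OK) (x : t.Pt) : NZ (t.ev x) := by
  induction t with
  | leaf d g => exact fun j => ht.2 j x.2
  | glue t p s iht ihs =>
    rcases x with ⟨a | a, u⟩
    · exact iht ht.1 (a, u)
    · exact ihs ht.2.1 (a, u)

theorem Smo.good {T : Tgt io A} {c : ℕ} (h : Smo T c) (d : J → ℕ) : Good T c d := by
  obtain ⟨h0, S, hS⟩ := h
  exact ⟨h0, S, fun E _ _ _ t ht _ hOn x => hS E _ (nz_ev t ht x) (hOn x)⟩

end Crest.Agent.X262.Vb
end
private theorem rz_9c36fb1a35 : type_of% @_root_.Crest.Agent.X262.Vb.hx.eq_1 := @_root_.Crest.Agent.X262.Vb.hx.eq_1 -- L220
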