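import Crest.Agent.X262.Vb.Vir
import Crest.Agent.X262.Sym65.Cal

/-!
# Row 262, road B (helper90), part 6: reductions of a configuration are defined by finitely many
values; the families `cpF`, `evF` live on the locus `Zon`; finite support of `vir`
-/

set_option autoImplicit false
set_option linter.unusedSectionVars false

noncomputable section

namespace Crest.Agent.X262.Vb

open Crest.Agent.X277 Crest.Agent.X277.BD Crest.Agent.X277.Pst Crest.Agent.X277.BD.Cyc Polynomial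
open Crest.Agent.X262.Geo (od od_eq_zero essFT_Rf)
open Crest.Agent.X262.Hb
open Crest.Agent.X262.Sym65 (PF PX sm i1 qv cf Sup Vals Liv LivX Fs Cl)

variable {J : Type} [Fintype J] [DecidableEq J] {io : J → Type} [∀ j, Fintype (io j)]
  [∀ j, DecidableEq (io j)] {A : Type} [Fintype A]
variable {I M : Type} [Fintype I] {K E L : Type} [Field K] [Algebra ℂ K] [Field E] [Algebra ℂ E]
  [Field L] [Algebra ℂ L]

section Ech

variable {P : Type} [Fintype P] {U : Submodule K (P → K)} {S : Finset P} {u u' : P → P → K}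

theorem Ech.eq (h : Ech U S u) (h' : Ech U S u') {s : P} (hs : s ∈ S) : u s = u' s := by
  classical
  funext x
  rw [h'.exp _ (h.mem s hs) x, Finset.sum_eq_single s (fun t ht hts => by
    rw [h.piv s hs t ht, if_neg hts.symm, zero_mul]) fun h0 => (h0 hs).elim, h.piv s hs s hs,
    if_pos rfl, one_mul]

theorem Ech.of_piv (h : ∀ s ∈ S, ∀ t ∈ S, u s t = open Classical in if s = t then 1 else 0) :
    Ech (Submodule.span K (u '' S)) S u :=
  Ech.of_span (fun s hs => ⟨s, hs, rfl⟩) h (by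
    rintro _ ⟨s, hs, rfl⟩ x
    rw [Finset.sum_eq_single s (fun t ht hts => by rw [h s hs t ht, if_neg hts.symm, zero_mul])
      fun h0 => (h0 hs).elim, h s hs s hs, if_pos rfl, one_mul])

open Classical in
/-- the echelon basis with pivots `S` -/
def ebs (U : Submodule K (P → K)) (S : Finset P) : P → P → K :=
  if h : ∃ u, Ech U S u then h.choose else 0

theorem exists_ebs (V : RZ ℂ K) (U : Submodule K (P → K)) :
    ∃ S : Finset P, Ech U S (ebs U S) ∧ ∀ s ∈ S, ∀ x, ebs U S s x ∈ V.1 := by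
  obtain ⟨S, u, h, hu⟩ := exists_ech V U
  have h1 : Ech U S (ebs U S) := by
    rw [ebs, dif_pos ⟨u, h⟩]
    exact Exists.choose_spec (⟨u, h⟩ : ∃ u, Ech U S u)
  exact ⟨S, h1, fun s hs x => h.eq h1 hs ▸ hu s hs x⟩

/-- the reduction of a subspace is defined by finitely many values -/
theorem exists_def_sub (U : Submodule K (P → K)) : ∃ T : Finset K,
    ∀ (E₀ : Type) [Field E₀] [Algebra ℂ E₀] (w : K → Option E₀), ∃ U₀ : Submodule E₀ (P → E₀),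
      ∀ (E : Type) [Field E] [Algebra ℂ E] (α : E₀ →ₐ[ℂ] E) (p : LP K E), Vals T w α p →
        redS p.toPl U = mapS α U₀ := by
  classical
  let T : Finset K := Finset.univ.image fun t : Finset P × P × P => ebs U t.1 t.2.1 t.2.2
  have hT : ∀ S s x, ebs U S s x ∈ T := fun S s x => Finset.mem_image.2 ⟨(S, s, x), by simp, rfl⟩
  refine ⟨T, fun E₀ _ _ w => ?_⟩
  by_cases h : ∃ (E : Type) (_ : Field E) (_ : Algebra ℂ E) (α : E₀ →ₐ[ℂ] E) (p : LP K E),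
    Vals T w α p
  swap
  · exact ⟨⊥, fun E _ _ α p hp => (h ⟨E, _, _, α, p, hp⟩).elim⟩
  obtain ⟨E₁, _, _, α₁, p₁, h₁⟩ := h
  obtain ⟨S, h1, h2⟩ := exists_ebs p₁.V U
  refine ⟨Submodule.span E₀ ((fun s x => (w (ebs U S s x)).getD 0) '' S), fun E _ _ α p hp => ?_⟩
  have h3 := h1.red p.toPl fun s hs x =>
    (hp.mem_iff (hT _ _ _)).2 ((h₁.mem_iff (hT _ _ _)).1 (h2 s hs x))
  simp only [hp.r (hT _ _ _)] at h3
  refine h3.unique (Ech.map (Ech.of_piv fun s hs t ht => (α : E₀ →+* E).injective ?_) α)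
  have := h3.piv s hs t ht
  split_ifs at this ⊢ <;> simpa using this

end Ech

namespace Cfg

variable {z z' z'' : Cfg io I K} {N : ℕ}

/-- gauge equivalence in multidegrees up to `N` -/
def GeqN (N : ℕ) (z z' : Cfg io I K) : Prop :=
  ∃ c : I → J → K, (∀ q j, c q j ≠ 0) ∧ z'.y = (z.gau c).y ∧
    ∀ κ : J → ℕ, (∀ j, κ j ≤ N) → z'.V κ = (z.gau c).V κ

open Classical in
/-- truncation -/
def tr (N : ℕ) (z : Cfg io I K) : Cfg io I K :=
  ⟨z.y, fun κ => if ∀ j, κ j ≤ N then z.V κ else ⊥⟩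

theorem tr_V {κ : J → ℕ} (h : ∀ j, κ j ≤ N) : (z.tr N).V κ = z.V κ := if_pos h

theorem geqN_iff : GeqN N z z' ↔ Geq (z.tr N) (z'.tr N) := by
  refine exists_congr fun c => and_congr_right fun _ => ⟨fun ⟨h1, h2⟩ => ?_, fun h => ?_⟩
  · refine ext (congrFun h1) fun κ => ?_
    by_cases h : ∀ j, κ j ≤ N
    · rw [tr_V h, gau_V, tr_V h, h2 κ h, gau_V]
    · simp only [gau_V, tr, if_neg h]
      exact (Submodule.map_bot _).symm
  · refine ⟨(congrArg Cfg.y h :), fun κ hκ => ?_⟩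
    rw [← tr_V hκ, h, gau_V, tr_V hκ, gau_V]

theorem Geq.geqN (h : Geq z z') (N : ℕ) : GeqN N z z' := by
  obtain ⟨c, hc, h⟩ := h
  exact ⟨c, hc, congrArg Cfg.y h, fun κ _ => congrArg (Cfg.V · κ) h⟩

theorem GeqN.of_eq (h1 : z'.y = z.y) (h2 : ∀ κ : J → ℕ, (∀ j, κ j ≤ N) → z'.V κ = z.V κ) :
    GeqN N z z' := ⟨fun _ _ => 1, fun _ _ => one_ne_zero, by rwa [gau_one], by rwa [gau_one]⟩

theorem GeqN.symm (h : GeqN N z z') : GeqN N z' z := geqN_iff.2 (geqN_iff.1 h).symm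

theorem GeqN.trans (h : GeqN N z z') (h' : GeqN N z' z'') : GeqN N z z'' :=
  geqN_iff.2 ((geqN_iff.1 h).trans (geqN_iff.1 h'))

theorem GeqN.mono (h : GeqN N z z') {N' : ℕ} (hN : N' ≤ N) : GeqN N' z z' :=
  h.imp fun _ hc => ⟨hc.1, hc.2.1, fun κ hκ => hc.2.2 κ fun j => (hκ j).trans hN⟩

theorem GeqN.nz (h : GeqN N z z') (hz : z.NZ) : z'.NZ := (geqN_iff.1 h).nz hz

theorem tr_map (α : K →ₐ[ℂ] E) : (z.map α).tr N = (z.tr N).map α :=
  ext (fun _ => rfl) fun κ => by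
    simp only [tr, map]
    split_ifs
    · rfl
    · exact (le_bot_iff.1 (mapS_le fun u hu => by simp [(Submodule.mem_bot K).1 hu]; rfl)).symm

theorem tr_red (p : Pl ℂ K ℂ E) : (z.red p).tr N = (z.tr N).red p :=
  ext (fun _ => rfl) fun κ => by
    simp only [tr, red, red0, gau]
    split_ifs
    · rfl
    · rw [sclS, Submodule.map_bot]
      exact (le_bot_iff.1 (redS_le fun u hu _ => by simp [(Submodule.mem_bot K).1 hu]; rfl)).symm

theorem tr_res {I' : Type} [Fintype I'] (g : I' → I) : (z.res g).tr N = (z.tr N).res g :=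
  ext (fun _ => rfl) fun κ => by
    simp only [tr, res]
    split_ifs
    · rfl
    · exact (Submodule.map_bot _).symm

theorem GeqN.map (h : GeqN N z z') (α : K →ₐ[ℂ] E) : GeqN N (z.map α) (z'.map α) := by
  rw [geqN_iff, tr_map, tr_map]
  exact (geqN_iff.1 h).map α

theorem GeqN.red (h : GeqN N z z') (hz : z.NZ) (p : Pl ℂ K ℂ E) : GeqN N (z.red p) (z'.red p) := by
  rw [geqN_iff, tr_red, tr_red]
  exact (geqN_iff.1 h).red hz p

theorem GeqN.res (h : GeqN N z z') {I' : Type} [Fintype I'] (g : I' → I) :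
    GeqN N (z.res g) (z'.res g) := by
  rw [geqN_iff, tr_res, tr_res]
  exact (geqN_iff.1 h).res g

variable {T : Tgt io A}

theorem Vt_tr (hk : ∀ a j, T.k a j ≤ N) : (z.tr N).Vt T = z.Vt T := by
  simp only [Vt, tr_V (hk _)]

theorem Eb_tr (hk : ∀ a j, T.k a j ≤ N) : (z.tr N).Eb T = z.Eb T := by
  rw [Eb, Vt_tr hk]
  rfl

theorem GeqN.on (h : GeqN N z z') : z'.On T ↔ z.On T := (geqN_iff.1 h).on T

theorem GeqN.dv (h : GeqN N z z') (hz : z.NZ) : z'.dv T = z.dv T := (geqN_iff.1 h).dv T hz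

theorem GeqN.finrank_Eb (h : GeqN N z z') (hk : ∀ a j, T.k a j ≤ N) :
    Module.finrank K (z'.Eb T) = Module.finrank K (z.Eb T) := by
  rw [← Eb_tr hk, (geqN_iff.1 h).finrank_Eb T, Eb_tr hk]

/-- **the reductions of a configuration are defined by finitely many values** -/
theorem exists_def (hz : z.NZ) (N : ℕ) : ∃ T : Finset K,
    ∀ (E₀ : Type) [Field E₀] [Algebra ℂ E₀] (w : K → Option E₀), ∃ z₀ : Cfg io I E₀,
      ∀ (E : Type) [Field E] [Algebra ℂ E] (α : E₀ →ₐ[ℂ] E) (p : LP K E), Vals T w α p →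
        GeqN N (z₀.map α) (z.red p.toPl) := by
  classical
  let g : (I → (j : J) → io j) → Cfg io I K := fun ι => z.gau fun q j => (z.y q j (ι q j))⁻¹
  choose T₁ h₁ using fun (ι : I → (j : J) → io j) (κ : J → ℕ) => exists_def_sub ((g ι).V κ)
  let T₂ : Finset K := Finset.univ.image fun t : (I → (j : J) → io j) × I × Vr io =>
    (g t.1).y t.2.1 t.2.2.1 t.2.2.2
  let T₃ : Finset K := (Finset.univ ×ˢ Finset.Iic fun _ : J => N).biUnion fun t => T₁ t.1 t.2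
  have h₂ : ∀ ι q j i, (g ι).y q j i ∈ T₂ ∪ T₃ := fun ι q j i =>
    Finset.mem_union_left _ (Finset.mem_image.2 ⟨(ι, q, ⟨j, i⟩), by simp, rfl⟩)
  have h₃ : ∀ ι (κ : J → ℕ), (∀ j, κ j ≤ N) → T₁ ι κ ⊆ T₂ ∪ T₃ := fun ι κ hκ t ht =>
    Finset.mem_union_right _ (Finset.mem_biUnion.2 ⟨(ι, κ), Finset.mem_product.2
      ⟨Finset.mem_univ _, Finset.mem_Iic.2 hκ⟩, ht⟩)
  refine ⟨T₂ ∪ T₃, fun E₀ _ _ w => ?_⟩
  by_cases h : ∃ (E : Type) (_ : Field E) (_ : Algebra ℂ E) (α : E₀ →ₐ[ℂ] E) (p : LP K E),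
    Vals (T₂ ∪ T₃) w α p
  swap
  · exact ⟨⟨0, fun _ => ⊥⟩, fun E _ _ α p hp => (h ⟨E, _, _, α, p, hp⟩).elim⟩
  obtain ⟨E₁, _, _, α₁, p₁, hp₁⟩ := h
  choose ι hι using fun q j => exists_ln (hz q) j p₁.V
  have h0 : ∀ q j, z.y q j (ι q j) ≠ 0 := fun q j => ne_of_val (hι q j)
  have h4 : (g ι).Pr p₁.V := fun q => prim_scl (hz q) fun j => by rw [map_inv₀, hι]
  choose U hU using fun κ => h₁ ι κ E₀ w
  refine ⟨⟨fun q j i => (w ((g ι).y q j i)).getD 0, U⟩, fun E _ _ α p hp => ?_⟩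
  have h5 : (g ι).Pr p.V := fun q j => ⟨fun i =>
    (hp.mem_iff (h₂ ι q j i)).2 ((hp₁.mem_iff (h₂ ι q j i)).1 ((h4 q j).1 i)), ι q j, by
      change p.V.v (_ * _) = 1
      rw [inv_mul_cancel₀ (h0 q j), map_one]⟩
  refine (GeqN.of_eq ?_ fun κ hκ => hU κ E α p (hp.mono (h₃ ι κ hκ))).trans
    (((geq_gau z fun q j => inv_ne_zero (h0 q j)).red_red0 h5).symm.geqN N)
  funext q j i
  exact hp.r (h₂ ι q j i)

end Cfg

variable {B : Th} {T : Tgt io A} {z z' : Cfg io I K} {m : M → I} {Φ Ψ : MFam B io M} {N : ℕ}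

theorem exists_bd (T : Tgt io A) : ∃ N, ∀ a j, T.k a j ≤ N :=
  ⟨Finset.univ.sup fun x : A × J => T.k x.1 x.2, fun a j =>
    Finset.le_sup (f := fun x : A × J => T.k x.1 x.2) (Finset.mem_univ (a, j))⟩

theorem cpz_tr (hk : ∀ a j, T.k a j ≤ N) : cpz B T (z.tr N) = cpz B T z := by
  rw [cpz, Cfg.Eb_tr hk]
  rfl

theorem cpz_geqN (hB : B.Ax) [Algebra.EssFiniteType ℂ K] (hk : ∀ a j, T.k a j ≤ N)
    (h : Cfg.GeqN N z z') (hz : z.NZ) : cpz B T z' = cpz B T z := by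
  rw [← cpz_tr hk, cpz_geq hB (Cfg.geqN_iff.1 h) hz, cpz_tr hk]

theorem MCls.geqN (hΦ : MCls B T Φ) [Algebra.EssFiniteType ℂ K] (h : Cfg.GeqN N z z') (hz : z.NZ)
    (hO : z.On T) : (Φ K fun q => z'.y (m q)) = Φ K fun q => z.y (m q) :=
  (hΦ.geq (m := m) (Cfg.geqN_iff.1 h) hz hO :)



/-! ### the families -/

variable (T) in
/-- the valuation rings at which the configuration specialises into the target -/
def Zon (z : Cfg io I K) : Set (RZ ℂ K) := {V | (z.red (plV V)).On T}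

theorem mem_Zon (hz : z.NZ) {p : LP K E} : p.V ∈ Zon T z ↔ (z.red p.toPl).On T := by
  rw [← (Cfg.red_fac p hz).on T, Cfg.on_map]
  rfl

theorem sup_sub (hz : z.NZ) : Sup (z.dv T) ⊆ Zon T z := fun _ h => on_at hz h

theorem Zon_eq (hz : z.NZ) (h : ¬ z.On T) : Zon T z = Sup (z.dv T) :=
  Set.ext fun V => Cfg.on_red_iff T (lnr_plV V) hz h

theorem Zon_of_on (hz : z.NZ) (h : z.On T) : Zon T z = Set.univ :=
  Set.eq_univ_of_forall fun V => h.red T (lnr_plV V) hz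

theorem cl_Zon (hz : z.NZ) : Cl (Zon T z) := by
  by_cases h : z.On T
  · rw [Zon_of_on hz h]
    exact fun _ _ _ _ => trivial
  · rw [Zon_eq hz h]
    exact Sym65.cl_sup _

/-- a class which is a natural function of the configuration is locally defined -/
theorem lc_of (hz : z.NZ) (N : ℕ) {Z : Set (RZ ℂ K)}
    (F : ∀ (E : Type) [Field E] [Algebra ℂ E], Cfg io I E → B.H E)
    (h : ∀ (E₀ E : Type) [Field E₀] [Algebra ℂ E₀] [Algebra.EssFiniteType ℂ E₀] [Field E]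
      [Algebra ℂ E] [Algebra.EssFiniteType ℂ E] (z₀ : Cfg io I E₀) (α : E₀ →ₐ[ℂ] E) (p : LP K E),
      p.V ∈ Z → z₀.NZ → Cfg.GeqN N (z₀.map α) (z.red p.toPl) →
      F E (z.red p.toPl) = B.pb (LP.hom α) (F E₀ z₀)) :
    ∃ T, Sym65.Lc B Z (fun E _ _ p => F E (z.red p.toPl)) T := by
  obtain ⟨T, hT⟩ := Cfg.exists_def hz N
  refine ⟨T, fun E₀ _ _ _ w => ?_⟩
  obtain ⟨z₀, h0⟩ := hT E₀ w
  exact ⟨F E₀ z₀, fun E _ _ _ α p hp hv => h E₀ E z₀ α p hp
    (fun q => (nz_map α).1 ((h0 E α p hv).symm.nz (hz.red _) q)) (h0 E α p hv)⟩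

/-- the same for polynomials -/
theorem lcX_of (hz : z.NZ) (N : ℕ) {Z : Set (RZ ℂ K)}
    (F : ∀ (E : Type) [Field E] [Algebra ℂ E], Cfg io I E → (B.H E)[X])
    (h : ∀ (E₀ E : Type) [Field E₀] [Algebra ℂ E₀] [Algebra.EssFiniteType ℂ E₀] [Field E]
      [Algebra ℂ E] [Algebra.EssFiniteType ℂ E] (z₀ : Cfg io I E₀) (α : E₀ →ₐ[ℂ] E) (p : LP K E),
      p.V ∈ Z → z₀.NZ → Cfg.GeqN N (z₀.map α) (z.red p.toPl) →
      F E (z.red p.toPl) = (F E₀ z₀).map (B.pb (LP.hom α) : B.H E₀ →+* B.H E)) :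
    ∃ T : Finset K, ∀ (E₀ : Type) [Field E₀] [Algebra ℂ E₀] [Algebra.EssFiniteType ℂ E₀]
      (w : K → Option E₀), ∃ x : (B.H E₀)[X], ∀ (E : Type) [Field E] [Algebra ℂ E]
      [Algebra.EssFiniteType ℂ E] (α : E₀ →ₐ[ℂ] E) (p : LP K E), p.V ∈ Z → Vals T w α p →
      F E (z.red p.toPl) = x.map (B.pb (LP.hom α) : B.H E₀ →+* B.H E) := by
  obtain ⟨T, hT⟩ := Cfg.exists_def hz N
  refine ⟨T, fun E₀ _ _ _ w => ?_⟩
  obtain ⟨z₀, h0⟩ := hT E₀ w
  exact ⟨F E₀ z₀, fun E _ _ _ α p hp hv => h E₀ E z₀ α p hp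
    (fun q => (nz_map α).1 ((h0 E α p hv).symm.nz (hz.red _) q)) (h0 E α p hv)⟩

/-- the insertions live on `Zon` -/
theorem liv_evF (hΦ : MCls B T Φ) (hz : z.NZ) (m : M → I) : Liv B (Zon T z) (evF z m Φ) where
  nat _ _ _ _ _ _ _ _ _ q hp := hΦ.evF_comp hz ((mem_Zon hz).1 hp) q
  loc := lc_of hz 0 (fun E _ _ w => Φ E fun q => w.y (m q)) fun _ _ _ _ _ _ _ _ z₀ α p hp h0 h => by
    have h1 := (Cfg.on_map T α).1 (h.on.1 ((mem_Zon hz).1 hp))
    rw [hΦ.geqN h (h0.map α) ((Cfg.on_map T α).2 h1), hΦ.map α h0 h1]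

/-- the Chern polynomial is locally defined everywhere -/
theorem loc_cpF (hB : B.Ax) (hz : z.NZ) (Z : Set (RZ ℂ K)) :
    ∃ S : Finset K, ∀ (E₀ : Type) [Field E₀] [Algebra ℂ E₀] [Algebra.EssFiniteType ℂ E₀]
      (w : K → Option E₀), ∃ x : (B.H E₀)[X], ∀ (E : Type) [Field E] [Algebra ℂ E]
      [Algebra.EssFiniteType ℂ E] (α : E₀ →ₐ[ℂ] E) (p : LP K E), p.V ∈ Z → Vals S w α p →
      cpF B T z E p = x.map (B.pb (LP.hom α) : B.H E₀ →+* B.H E) := by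
  obtain ⟨N, hN⟩ := exists_bd T
  exact lcX_of hz N (fun E _ _ w => cpz B T w) fun _ _ _ _ _ _ _ _ z₀ α p _ h0 h => by
    rw [cpz_geqN hB hN h (h0.map α), cpz_map hB]

/-- **FAMCFG**: the Chern polynomial of the obstruction space lives on `Zon` -/
theorem Rk.livX (h : Rk T z) (hB : B.Ax) : LivX B (Zon T z) (cpF B T z) where
  nat _ _ _ _ _ _ _ _ _ q hp := h.cpF_comp hB ((mem_Zon h.nz).1 hp) q
  loc := loc_cpF hB h.nz _

/-- the integrand of `vir` lives on `Zon` -/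
theorem Rk.liv (h : Rk T z) (hB : B.Ax) (hΦ : MCls B T Φ) (m : M → I) (a : BD ℂ K) :
    Liv B (Zon T z) (qv (cpF B T z) (cf B a) * evF z m Φ) :=
  ((h.livX hB).qv (Liv.glob hB _)).mul (liv_evF hΦ h.nz m)

/-! ### finite support, additivity -/

variable [Algebra.EssFiniteType ℂ K]

/-- finite support (no rank condition), with a weight -/
theorem fs_trm (hB : B.Ax) (hΦ : MCls B T Φ) (hz : z.NZ) (m : M → I) {Z : Set (RZ ℂ K)}
    {ω : PF B K} (hω : Liv B Z ω) (a : BD ℂ K)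
    (hZ : ∀ W, Dvs W → od W a ≠ 0 → W ∈ Z ∧ W ∈ Zon T z) :
    Fs a fun W => B.itg (Rf W) (ω (Rf W) (LP.at W) * trm B T z m Φ W) := by
  classical
  obtain ⟨S₁, h1⟩ := loc_cpF (T := T) hB hz Set.univ
  obtain ⟨S₂, h2⟩ := (liv_evF hΦ hz m).lc
  obtain ⟨S₃, h3⟩ := hω.lc
  obtain ⟨S₄, h4⟩ := (Liv.glob (Z := Set.univ) hB (B.c1 (z.dv T))).lc
  refine hB.fin_supp a (S₁ ∪ S₂ ∪ S₃ ∪ S₄) _ fun V hV h0 => ?_
  have := essFT_Rf hV
  obtain ⟨w, hw⟩ := Sym65.exists_vals (T := S₁ ∪ S₂ ∪ S₃ ∪ S₄) (p := LP.at V)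
    (α := (sf V (S₁ ∪ S₂ ∪ S₃ ∪ S₄)).val) fun t ht => ⟨⟨_, r_mem_sf V ht⟩, rfl⟩
  obtain ⟨x₁, e₁⟩ := h1 _ w
  obtain ⟨x₂, e₂⟩ := h2 _ w
  obtain ⟨x₃, e₃⟩ := h3 _ w
  obtain ⟨x₄, e₄⟩ := h4 _ w
  refine ⟨x₃ * ((-x₁.divX).eval x₄ * x₂), ?_⟩
  rw [map_mul, map_mul, pb_eval, Polynomial.map_neg, Sym65.map_divX,
    ← e₁ _ _ (LP.at V) trivial (hw.mono fun t ht => by simp [ht]),
    ← e₂ _ _ (LP.at V) (hZ V hV h0).2 (hw.mono fun t ht => by simp [ht]),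
    ← e₃ _ _ (LP.at V) (hZ V hV h0).1 (hw.mono fun t ht => by simp [ht]),
    ← e₄ _ _ (LP.at V) trivial (hw.mono fun t ht => by simp [ht])]
  rfl

theorem fs_vir (hB : B.Ax) (hΦ : MCls B T Φ) (hz : z.NZ) (m : M → I) :
    Fs (z.dv T) fun W => B.itg (Rf W) (trm B T z m Φ W) := by
  have := fs_trm hB hΦ hz m (Liv.one (Z := Set.univ)) (z.dv T) fun W hW h =>
    ⟨trivial, on_at hz ((od_eq_zero hW).not.1 h)⟩
  simpa only [Pi.one_apply, one_mul] using this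

theorem vir_add (hB : B.Ax) (hΦ : MCls B T Φ) (hΨ : MCls B T Ψ) (hz : z.NZ) (m : M → I) :
    vir B T z m (Φ + Ψ) = vir B T z m Φ + vir B T z m Ψ := by
  refine Eq.trans ?_ (Sym65.sm_add (fs_vir hB hΦ hz m) (fs_vir hB hΨ hz m))
  refine congrArg (sm _) (funext fun W => ?_)
  change B.itg _ (_ * (Φ (Rf W) _ + Ψ (Rf W) _)) = _
  rw [mul_add, map_add]
  rfl



end Crest.Agent.X262.Vb
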