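import Crest.Agent.X262.Vb.Bas0
import Crest.Agent.X262.Hb.Bas

/-!
# Row 262, road B (helper90), part 4: the calculus of configurations
-/

set_option autoImplicit false
set_option linter.unusedSectionVars false

noncomputable section

namespace Crest.Agent.X262.Vb

open Crest.Agent.X277 Crest.Agent.X277.BD Crest.Agent.X277.BD.Cyc
open Crest.Agent.X262.Hb
open Crest.Agent.X262.Node22 (scl chr vec pv_scl chr_ne mem_Nm_scl mem_Eb mem_Vt)
open Crest.Agent.X262.Tree87 (r_sum r_prod)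

variable {J : Type} [Fintype J] [DecidableEq J] {io : J → Type} [∀ j, Fintype (io j)]
  [∀ j, DecidableEq (io j)] {A : Type} [Fintype A]
variable {I : Type} [Fintype I] {K E L : Type} [Field K] [Algebra ℂ K] [Field E] [Algebra ℂ E]
  [Field L] [Algebra ℂ L]

namespace Cfg

variable {z z' z'' : Cfg io I K} {c c' : I → J → K} {V : RZ ℂ K}

theorem ext (h1 : ∀ q, z.y q = z'.y q) (h2 : ∀ κ, z.V κ = z'.V κ) : z = z' := by
  obtain ⟨y, U⟩ := z
  obtain ⟨y', U'⟩ := z'
  obtain rfl : y = y' := funext h1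
  obtain rfl : U = U' := funext h2
  rfl

theorem gau_y (c : I → J → K) (z : Cfg io I K) (q : I) : (z.gau c).y q = scl (c q) (z.y q) := rfl

theorem gau_V (c : I → J → K) (z : Cfg io I K) (κ : J → ℕ) :
    (z.gau c).V κ = sclS (fun q => chr (c q) κ) (z.V κ) := rfl

theorem map_y (α : K →ₐ[ℂ] E) (z : Cfg io I K) (q : I) : (z.map α).y q = mapP α (z.y q) := rfl

theorem gau_gau (c c' : I → J → K) (z : Cfg io I K) :
    (z.gau c').gau c = z.gau fun q j => c q j * c' q j :=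
  ext (fun q => Node22.scl_scl _ _ _) fun κ => by
    rw [gau_V, gau_V, gau_V, sclS_sclS]
    congr 1
    funext q
    exact (Node22.chr_mul _ _ _).symm

theorem gau_one (z : Cfg io I K) : (z.gau fun _ _ => 1) = z :=
  ext (fun q => by funext j i; exact one_mul _) fun κ => by
    rw [gau_V, show (fun _ : I => chr (fun _ : J => (1 : K)) κ) = fun _ => 1 from
      funext fun _ => by simp [chr], sclS_one]

theorem NZ.gau (h : z.NZ) (hc : ∀ q j, c q j ≠ 0) : (z.gau c).NZ :=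
  fun q => Node22.nz_scl (h q) (hc q)

theorem NZ.map (h : z.NZ) (α : K →ₐ[ℂ] E) : (z.map α).NZ := fun q => (nz_map α).2 (h q)

theorem NZ.res {I' : Type} (h : z.NZ) (g : I' → I) : (z.res g).NZ := fun q => h (g q)

/-- all coordinates are primitive at `V` -/
def Pr (V : RZ ℂ K) (z : Cfg io I K) : Prop := ∀ q, Prim V (z.y q)

theorem Pr.nz (h : z.Pr V) : z.NZ := fun q => (h q).nz

theorem Pr.nz_red0 {p : Pl ℂ K ℂ E} (h : z.Pr p.V) : (z.red0 p).NZ := fun q => (h q).nz_red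

theorem nrm_ne (V : RZ ℂ K) (z : Cfg io I K) (q : I) (j : J) : z.nrm V q j ≠ 0 :=
  inv_ne_zero (gen_ne _ _)

theorem pr_nrm (h : z.NZ) (V : RZ ℂ K) : (z.gau (z.nrm V)).Pr V := fun q =>
  prim_scl (h q) fun j => by rw [nrm, map_inv₀, v_gen]

theorem NZ.red (h : z.NZ) (p : Pl ℂ K ℂ E) : (z.red p).NZ := (pr_nrm h p.V).nz_red0

theorem pr_hom (α : K →ₐ[ℂ] E) (h : z.NZ) : z.Pr (LP.hom α).V := fun q => prim_hom α (h q)

theorem pr_comp {p : LP K E} {q : LP E L} :
    z.Pr (p.comp q).V ↔ z.Pr p.V ∧ (z.red0 p.toPl).Pr q.V :=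
  (forall_congr' fun _ => prim_comp).trans forall_and

/-- gauge equivalence -/
def Geq (z z' : Cfg io I K) : Prop := ∃ c : I → J → K, (∀ q j, c q j ≠ 0) ∧ z' = z.gau c

theorem Geq.rfl : Geq z z := ⟨fun _ _ => 1, fun _ _ => one_ne_zero, (gau_one z).symm⟩

theorem Geq.of_eq (h : z = z') : Geq z z' := h ▸ Geq.rfl

theorem geq_gau (z : Cfg io I K) (hc : ∀ q j, c q j ≠ 0) : Geq z (z.gau c) := ⟨c, hc, rfl⟩

theorem Geq.symm (h : Geq z z') : Geq z' z := by
  obtain ⟨c, hc, rfl⟩ := h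
  refine ⟨fun q j => (c q j)⁻¹, fun q j => inv_ne_zero (hc q j), ?_⟩
  rw [gau_gau, show (fun q j => (c q j)⁻¹ * c q j) = fun _ _ => 1 from
    funext fun q => funext fun j => inv_mul_cancel₀ (hc q j), gau_one]

theorem Geq.trans (h : Geq z z') (h' : Geq z' z'') : Geq z z'' := by
  obtain ⟨c, hc, rfl⟩ := h
  obtain ⟨c', hc', rfl⟩ := h'
  exact ⟨_, fun q j => mul_ne_zero (hc' q j) (hc q j), gau_gau _ _ _⟩

theorem Geq.nz (h : Geq z z') (hz : z.NZ) : z'.NZ := by
  obtain ⟨c, hc, rfl⟩ := h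
  exact hz.gau hc

theorem map_gau (α : K →ₐ[ℂ] E) (c : I → J → K) (z : Cfg io I K) :
    (z.gau c).map α = (z.map α).gau fun q j => α (c q j) :=
  ext (fun q => by funext j i; exact map_mul α _ _) fun κ => by
    change mapS α (sclS _ _) = sclS _ (mapS α _)
    rw [mapS_sclS]
    simp only [map_prod, map_pow]

theorem Geq.map (h : Geq z z') (α : K →ₐ[ℂ] E) : Geq (z.map α) (z'.map α) := by
  obtain ⟨c, hc, rfl⟩ := h
  exact ⟨_, fun q j => (map_ne_zero α).2 (hc q j), map_gau _ _ _⟩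

theorem map_map (α : K →ₐ[ℂ] E) (β : E →ₐ[ℂ] L) (z : Cfg io I K) :
    (z.map α).map β = z.map (β.comp α) := ext (fun _ => rfl) fun _ => mapS_mapS _ _ _

theorem map_id (z : Cfg io I K) : z.map (AlgHom.id ℂ K) = z := ext (fun _ => rfl) fun _ => mapS_id _

theorem res_map {I' : Type} [Fintype I'] (g : I' → I) (α : K →ₐ[ℂ] E) (z : Cfg io I K) :
    (z.map α).res g = (z.res g).map α := ext (fun _ => rfl) fun _ => (mapS_map _ _ _).symm

theorem res_gau {I' : Type} [Fintype I'] (g : I' → I) (c : I → J → K) (z : Cfg io I K) :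
    (z.gau c).res g = (z.res g).gau fun q => c (g q) :=
  ext (fun _ => rfl) fun κ => by
    ext w
    constructor
    · rintro ⟨_, ⟨u, hu, rfl⟩, rfl⟩
      exact ⟨_, ⟨u, hu, rfl⟩, rfl⟩
    · rintro ⟨_, ⟨u, hu, rfl⟩, rfl⟩
      exact ⟨_, ⟨u, hu, rfl⟩, rfl⟩

theorem Geq.res {I' : Type} [Fintype I'] (h : Geq z z') (g : I' → I) :
    Geq (z.res g) (z'.res g) := by
  obtain ⟨c, hc, rfl⟩ := h
  exact ⟨_, fun q j => hc (g q) j, res_gau _ _ _⟩


theorem red0_gau (p : Pl ℂ K ℂ E) (hc : ∀ q j, p.V.v (c q j) = 1) (hz : z.Pr p.V) :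
    (z.gau c).red0 p = (z.red0 p).gau fun q j => p.r (c q j) := by
  have h1 : ∀ q j, c q j ∈ p.V.1 := fun q j => RZ.le_one_iff.1 (hc q j).le
  refine ext (fun q => redP_scl p (h1 q) fun j => (hz q j).1) fun κ => ?_
  change redS p (sclS _ _) = sclS _ (redS p _)
  rw [redS_sclS p fun q => by simp [hc]]
  congr 1
  funext q
  rw [r_prod _ fun j _ => pow_mem (h1 q j) _]
  exact Finset.prod_congr rfl fun j _ => Pl.r_pow (h1 q j) _

theorem Geq.red0 {p : Pl ℂ K ℂ E} (h : Geq z z') (hz : z.Pr p.V) (hz' : z'.Pr p.V) :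
    Geq (z.red0 p) (z'.red0 p) := by
  obtain ⟨c, hc, rfl⟩ := h
  have h1 : ∀ q j, p.V.v (c q j) = 1 := fun q j => by
    rw [Prim.v_eq (hz q).nz (hc q) (hz' q) j, (hz q).val_ln, inv_one]
  exact ⟨_, fun q j => Pl.r_ne_zero_iff.2 (h1 q j), red0_gau p h1 hz⟩

/-- the reduction may be computed in any primitive gauge -/
theorem Geq.red_red0 {p : Pl ℂ K ℂ E} (h : Geq z z') (hz' : z'.Pr p.V) :
    Geq (z.red p) (z'.red0 p) :=
  ((geq_gau z (nrm_ne p.V z)).symm.trans h).red0 (pr_nrm (h.symm.nz hz'.nz) _) hz'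

theorem red_red0 {p : Pl ℂ K ℂ E} (hz : z.Pr p.V) : Geq (z.red p) (z.red0 p) := Geq.rfl.red_red0 hz

theorem Geq.red (h : Geq z z') (hz : z.NZ) (p : Pl ℂ K ℂ E) : Geq (z.red p) (z'.red p) :=
  (h.trans (geq_gau z' (nrm_ne p.V z'))).red_red0 (pr_nrm (h.nz hz) _)

theorem red0_hom (α : K →ₐ[ℂ] E) (z : Cfg io I K) : z.red0 (LP.hom α).toPl = z.map α :=
  ext (fun _ => redP_hom α _) fun _ => redS_hom α _

theorem red_hom (α : K →ₐ[ℂ] E) (hz : z.NZ) : Geq (z.red (LP.hom α).toPl) (z.map α) :=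
  red0_hom α z ▸ red_red0 (pr_hom α hz)

theorem red0_comp (p : LP K E) (q : LP E L) (hz : z.Pr p.V) :
    z.red0 (p.comp q).toPl = (z.red0 p.toPl).red0 q.toPl :=
  ext (fun x => redP_comp p q fun j => (hz x j).1) fun _ => redS_comp p q _

theorem red_comp (p : LP K E) (q : LP E L) (hz : z.NZ) :
    Geq (z.red (p.comp q).toPl) ((z.red p.toPl).red q.toPl) := by
  have h1 := pr_comp.1 (pr_nrm hz (p.comp q).V)
  have h2 : Geq (z.red p.toPl) ((z.gau (z.nrm (p.comp q).V)).red0 p.toPl) :=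
    (geq_gau z (nrm_ne _ z)).red_red0 h1.1
  exact (Geq.of_eq (red0_comp p q h1.1)).trans (h2.red_red0 h1.2).symm

theorem red_map (α : K →ₐ[ℂ] E) (q : LP E L) (hz : z.NZ) :
    Geq (z.red ((LP.hom α).comp q).toPl) ((z.map α).red q.toPl) :=
  (red_comp _ q hz).trans ((red_hom α hz).red (hz.red _) _)

theorem map_red (p : LP K E) (β : E →ₐ[ℂ] L) (hz : z.NZ) :
    Geq (z.red (p.comp (LP.hom β)).toPl) ((z.red p.toPl).map β) :=
  (red_comp p _ hz).trans (red_hom β (hz.red _))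

theorem red_fac (p : LP K E) (hz : z.NZ) :
    Geq (z.red p.toPl) ((z.red (plV p.V)).map p.emb) := by
  have := map_red (LP.at p.V) p.emb hz
  rwa [p.fac] at this


/-! ### the section, the lines, the divisor, the obstruction space -/

variable (T : Tgt io A)

theorem sv_gau (c : I → J → K) (z : Cfg io I K) :
    (z.gau c).sv T = fun x => chr (c x.2) (T.k x.1) * z.sv T x :=
  funext fun x => pv_scl (T.hom x.1) _ _

theorem ea_gau (hz : z.NZ) (hc : ∀ q j, c q j ≠ 0) :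
    (z.gau c).ea T = fun x => z.ea T x + pr ℂ (chr (c x.2) (T.k x.1)) :=
  funext fun x => lw_scl (hz x.2) (hc x.2) _

theorem dv_gau (hz : z.NZ) (hc : ∀ q j, c q j ≠ 0) : (z.gau c).dv T = z.dv T := by
  rw [dv, sv_gau, ea_gau T hz hc, 
    sz_scl (c := fun x : A × I => chr (c x.2) (T.k x.1)) fun x => chr_ne (hc x.2) _, dv]

theorem Geq.dv (h : Geq z z') (hz : z.NZ) : z'.dv T = z.dv T := by
  obtain ⟨c, hc, rfl⟩ := h
  exact dv_gau T hz hc

theorem Vt_gau (hc : ∀ q j, c q j ≠ 0) (z : Cfg io I K) :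
    (z.gau c).Vt T = sclS (fun x => chr (c x.2) (T.k x.1)) (z.Vt T) := by
  ext σ
  rw [mem_sclS' fun x : A × I => chr_ne (hc x.2) _, mem_Vt, mem_Vt]
  exact forall_congr' fun a => mem_sclS' fun q => chr_ne (hc q) _

theorem Eb_gau (hc : ∀ q j, c q j ≠ 0) (z : Cfg io I K) :
    (z.gau c).Eb T = sclS (fun x => chr (c x.2) (T.k x.1)) (z.Eb T) := by
  ext σ
  rw [mem_sclS' fun x : A × I => chr_ne (hc x.2) _, mem_Eb, mem_Eb]
  refine and_congr (forall_congr' fun a => mem_sclS' fun q => chr_ne (hc q) _)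
    (forall_congr' fun q => ?_)
  rw [gau_y, Nm_scl T (hc q), mem_sclS' fun a => chr_ne (hc q) _]

theorem on_gau (hc : ∀ q j, c q j ≠ 0) : (z.gau c).On T ↔ z.On T :=
  forall_congr' fun q => on_scl_iff T (hc q)

theorem Geq.on (h : Geq z z') : z'.On T ↔ z.On T := by
  obtain ⟨c, hc, rfl⟩ := h
  exact on_gau T hc

theorem Geq.finrank_Eb (h : Geq z z') :
    Module.finrank K (z'.Eb T) = Module.finrank K (z.Eb T) := by
  obtain ⟨c, hc, rfl⟩ := h
  rw [Eb_gau T hc, finrank_sclS fun x : A × I => chr_ne (hc x.2) _]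

theorem on_iff : z.On T ↔ z.sv T = 0 :=
  ⟨fun h => funext fun x => h x.2 x.1, fun h q a => congrFun h (a, q)⟩

theorem sv_map (α : K →ₐ[ℂ] E) (z : Cfg io I K) : (z.map α).sv T = fun x => α (z.sv T x) :=
  funext fun _ => pv_map α _ _

theorem ea_map (α : K →ₐ[ℂ] E) (z : Cfg io I K) : (z.map α).ea T = fun x => pb α (z.ea T x) :=
  funext fun _ => lw_map α _ _

theorem dv_map (α : K →ₐ[ℂ] E) (z : Cfg io I K) : (z.map α).dv T = pb α (z.dv T) := by
  rw [dv, sv_map, ea_map, ← pb_sz, dv, map_neg]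

theorem on_map (α : K →ₐ[ℂ] E) : (z.map α).On T ↔ z.On T := forall_congr' fun _ => Vb.on_map T α

theorem Vt_map (α : K →ₐ[ℂ] E) (z : Cfg io I K) : (z.map α).Vt T = mapS α (z.Vt T) := by
  simp only [Vt, mapS_iInf, mapS_comap]
  rfl

theorem Eb_map (α : K →ₐ[ℂ] E) (z : Cfg io I K) : (z.map α).Eb T = mapS α (z.Eb T) := by
  simp only [Eb, mapS_inf, mapS_iInf, mapS_comap, Vt_map, map_y, Nm_map]

theorem Pr.val_ea (h : z.Pr V) (x : A × I) : (z.ea T x).val V = 1 := (h x.2).val_lw _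

theorem Pr.sv_mem (h : z.Pr V) (x : A × I) : z.sv T x ∈ V.1 := pv_mem (fun j => (h x.2 j).1) _

theorem sv_red0 {p : Pl ℂ K ℂ E} (hp : Lnr p) (h : z.Pr p.V) :
    (z.red0 p).sv T = fun x => p.r (z.sv T x) :=
  funext fun x => (r_pv hp (fun j => (h x.2 j).1) _).symm

theorem ea_red0 {p : Pl ℂ K ℂ E} (h : z.Pr p.V) : (z.red0 p).ea T = fun x => p.res (z.ea T x) :=
  funext fun x => lw_red (h x.2) _

theorem nm_sv_le (hz : z.NZ) (V : RZ ℂ K) : nm (z.ea T) V (z.sv T) ≤ 1 :=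
  nm_le.2 fun x => by rw [one_mul]; exact v_pv_le (hz x.2) (T.hom x.1) V

theorem dv_of_on (h : z.On T) : z.dv T = 0 := by rw [dv, (on_iff T).1 h, sz_zero, neg_zero]

theorem val_dv (h : ¬ z.On T) (V : RZ ℂ K) : (z.dv T).val V = (nm (z.ea T) V (z.sv T))⁻¹ := by
  rw [dv, val_neg, val_sz fun h0 => h ((on_iff T).2 h0)]

theorem dv_eq_dst (h : ¬ z.On T) : z.dv T = -dst (z.ea T) ⊥ (z.sv T) := by
  rw [dv, sz_eq_dst fun h0 => h ((on_iff T).2 h0)]

theorem dv_nonneg (hz : z.NZ) : 0 ≤ z.dv T := by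
  by_cases h : z.On T
  · rw [dv_of_on T h]
  · intro V
    rw [val_zero, val_dv T h]
    exact (one_le_inv₀ (nm_pos fun h0 => h ((on_iff T).2 h0))).2 (nm_sv_le T hz V)

theorem on_red0_iff {p : Pl ℂ K ℂ E} (hp : Lnr p) (h : z.Pr p.V) :
    (z.red0 p).On T ↔ nm (z.ea T) p.V (z.sv T) < 1 := by
  rw [on_iff, sv_red0 T hp h, funext_iff]
  simp only [Pi.zero_apply, Pl.r_eq_zero (h.sv_mem T _)]
  refine ⟨fun h1 => ?_, fun h1 x => ?_⟩
  · by_cases h0 : z.sv T = 0
    · simp [h0]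
    · obtain ⟨x, -, hx⟩ := exists_nm (z.ea T) p.V h0
      rw [h.val_ea, mul_one] at hx
      exact hx ▸ h1 x
  · have := le_nm (z.ea T) p.V (z.sv T) x
    rw [h.val_ea, mul_one] at this
    exact this.trans_lt h1

/-- the support of the divisor of the section -/
theorem on_red_iff {p : Pl ℂ K ℂ E} (hp : Lnr p) (hz : z.NZ) (h : ¬ z.On T) :
    (z.red p).On T ↔ (z.dv T).val p.V ≠ 1 := by
  have h1 := (on_gau T (nrm_ne p.V z)).not.2 h
  rw [red, on_red0_iff T hp (pr_nrm hz _), ← dv_gau T hz (nrm_ne p.V z), val_dv T h1, Ne,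
    inv_eq_one]
  exact (nm_sv_le T (hz.gau (nrm_ne p.V z)) _).lt_iff_ne

theorem on_red_of {p : Pl ℂ K ℂ E} (hp : Lnr p) (hz : z.NZ) (h : (z.dv T).val p.V ≠ 1) :
    (z.red p).On T :=
  (on_red_iff T hp hz fun h0 => h (by rw [dv_of_on T h0, val_zero])).2 h

theorem On.red {p : Pl ℂ K ℂ E} (hp : Lnr p) (hz : z.NZ) (h : z.On T) : (z.red p).On T :=
  fun q => on_red T hp (fun j => (pr_nrm hz p.V q j).1) ((on_gau T (nrm_ne p.V z)).2 h q)

/-- off its support the divisor restricts to the divisor of the reduction -/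
theorem dv_red {p : Pl ℂ K ℂ E} (hp : Lnr p) (hz : z.NZ) (h : ¬ (z.red p).On T) :
    (z.red p).dv T = p.res (z.dv T) := by
  have h0 : ¬ z.On T := fun h0 => h (h0.red T hp hz)
  have hP := pr_nrm hz p.V
  have h1 : nm ((z.gau (z.nrm p.V)).ea T) p.V ((z.gau (z.nrm p.V)).sv T) = 1 :=
    (nm_sv_le T hP.nz _).antisymm (not_lt.1 fun h2 => h ((on_red0_iff T hp hP).2 h2))
  have h2 : (sz ((z.gau (z.nrm p.V)).sv T) ((z.gau (z.nrm p.V)).ea T)).val p.V = 1 := by
    rw [val_sz (fun h3 => by simp [h3] at h1), h1]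
  rw [← dv_gau T hz (nrm_ne p.V z), dv, dv, Pl.res_neg h2, res_sz p (hP.val_ea T) h1, red,
    sv_red0 T hp hP, ea_red0 T hP]

theorem redS_Vt (p : Pl ℂ K ℂ E) (z : Cfg io I K) : redS p (z.Vt T) = (z.red0 p).Vt T := by
  classical
  refine le_antisymm (redS_le fun u hu hi => mem_Vt.2 fun a =>
    mem_redS p (mem_Vt.1 hu a) fun q => hi (a, q)) fun w hw => ?_
  have h1 : ∀ a, ∀ t ∈ redS p (z.V (T.k a)),
      (fun x : A × I => if x.1 = a then t x.2 else 0) ∈ redS p (z.Vt T) := fun a t ht => by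
    induction ht using Submodule.span_induction with
    | mem t ht =>
      obtain ⟨u, hu, hi, rfl⟩ := ht
      have h2 : (fun x : A × I => if x.1 = a then u x.2 else 0) ∈ z.Vt T := mem_Vt.2 fun b => by
        by_cases hb : b = a
        · subst hb
          simpa using hu
        · simp only [if_neg hb]
          exact zero_mem _
      have h3 := mem_redS p h2 fun x => by
        split_ifs
        · exact hi _
        · exact zero_mem _
      convert h3 using 2 with x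
      split_ifs <;> simp
    | zero => convert (redS p (z.Vt T)).zero_mem using 2; simp
    | add s t _ _ hs ht =>
      convert add_mem hs ht using 2 with x
      simp only [Pi.add_apply]
      split_ifs <;> simp
    | smul e s _ hs =>
      convert Submodule.smul_mem _ e hs using 2 with x
      simp only [Pi.smul_apply]
      split_ifs <;> simp
  have h2 : w = ∑ a, fun x : A × I => if x.1 = a then w (a, x.2) else 0 := by
    funext x
    simp [Finset.sum_apply]
  rw [h2]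
  exact sum_mem fun a _ => h1 a _ (mem_Vt.1 hw a)

/-! ### multiplicative configurations -/

/-- the spaces of values form a graded algebra which contains the coordinates -/
structure Mul (z : Cfg io I K) : Prop where
  one : (fun _ => 1) ∈ z.V 0
  crd : ∀ j i, (fun q => z.y q j i) ∈ z.V (Pi.single j 1)
  mul : ∀ κ κ' u u', u ∈ z.V κ → u' ∈ z.V κ' → u * u' ∈ z.V (κ + κ')

theorem span_mul {P : Type} {G G' : Set (P → E)} {W : Submodule E (P → E)}
    (h : ∀ u ∈ G, ∀ u' ∈ G', u * u' ∈ W) {u u' : P → E} (hu : u ∈ Submodule.span E G)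
    (hu' : u' ∈ Submodule.span E G') : u * u' ∈ W := by
  have := Submodule.mul_mem_mul hu hu'
  rw [Submodule.span_mul_span] at this
  exact Submodule.span_le.2 (by rintro _ ⟨a, ha, b, hb, rfl⟩; exact h a ha b hb) this

namespace Mul

theorem gau (h : z.Mul) (c : I → J → K) : (z.gau c).Mul where
  one := ⟨_, h.one, funext fun q => by simp⟩
  crd j i := ⟨_, h.crd j i, funext fun q => by
    change (∏ j', c q j' ^ (Pi.single j 1 : J → ℕ) j') * _ = c q j * _
    rw [Finset.prod_eq_single j (fun j' _ hj => by simp [hj]) (by simp)]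
    simp⟩
  mul κ κ' := by
    rintro _ _ ⟨u, hu, rfl⟩ ⟨u', hu', rfl⟩
    refine ⟨_, h.mul _ _ _ _ hu hu', funext fun q => ?_⟩
    change (∏ j, c q j ^ (κ + κ') j) * (u q * u' q) =
      (∏ j, c q j ^ κ j) * u q * ((∏ j, c q j ^ κ' j) * u' q)
    simp only [Pi.add_apply, pow_add, Finset.prod_mul_distrib]
    ring

theorem geq (h : z.Mul) (h' : Geq z z') : z'.Mul := by
  obtain ⟨c, -, rfl⟩ := h'
  exact h.gau c

theorem red0 (h : z.Mul) {p : Pl ℂ K ℂ E} (hz : z.Pr p.V) : (z.red0 p).Mul where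
  one := by
    have := mem_redS p h.one fun _ => one_mem _
    simp only [Pl.r_one] at this
    exact this
  crd j i := mem_redS p (h.crd j i) fun q => (hz q j).1 i
  mul κ κ' u u' := span_mul (by
    rintro _ ⟨u, hu, hi, rfl⟩ _ ⟨u', hu', hi', rfl⟩
    have := mem_redS p (h.mul _ _ _ _ hu hu') fun q => mul_mem (hi q) (hi' q)
    rw [show ((fun q => p.r (u q)) * fun q => p.r (u' q)) = fun q => p.r ((u * u') q) from
      funext fun q => (Pl.r_mul (hi q) (hi' q)).symm]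
    exact this)

theorem red (h : z.Mul) (hz : z.NZ) (p : Pl ℂ K ℂ E) : (z.red p).Mul :=
  (h.gau _).red0 (pr_nrm hz _)

theorem map (h : z.Mul) (hz : z.NZ) (α : K →ₐ[ℂ] E) : (z.map α).Mul :=
  red0_hom α z ▸ h.red0 (pr_hom α hz)

theorem res (h : z.Mul) {I' : Type} (g : I' → I) : (z.res g).Mul where
  one := ⟨_, h.one, rfl⟩
  crd j i := ⟨_, h.crd j i, rfl⟩
  mul κ κ' := by
    rintro _ _ ⟨u, hu, rfl⟩ ⟨u', hu', rfl⟩
    exact ⟨_, h.mul _ _ _ _ hu hu', rfl⟩

theorem pow (h : z.Mul) {κ : J → ℕ} {u : I → K} (hu : u ∈ z.V κ) (n : ℕ) : u ^ n ∈ z.V (n • κ) := by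
  induction n with
  | zero => rw [pow_zero, zero_nsmul]; exact h.one
  | succ n ih => rw [pow_succ, succ_nsmul]; exact h.mul _ _ _ _ ih hu

theorem pv_mem (h : z.Mul) {f : MvPolynomial (Vr io) ℂ} {κ : J → ℕ} (hf : MH f κ) :
    (fun q => pv (z.y q) f) ∈ z.V κ := by
  have key : ∀ d : Vr io →₀ ℕ, (fun q => d.prod fun v k => z.y q v.1 v.2 ^ k) ∈
      z.V (Finsupp.weight (fun v : Vr io => (Pi.single v.1 1 : J → ℕ)) d) := by
    intro d
    induction d using Finsupp.induction_linear with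
    | zero => simp only [Finsupp.prod_zero_index, map_zero]; exact h.one
    | add a b ha hb =>
      rw [map_add]
      convert h.mul _ _ _ _ ha hb using 1
      exact funext fun q => Finsupp.prod_add_index' (by simp) (by simp [pow_add])
    | single v k =>
      rw [Finsupp.weight_single]
      convert h.pow (h.crd v.1 v.2) k using 1
      exact funext fun q => Finsupp.prod_single_index (by simp)
  unfold MH at hf
  induction hf using MvPolynomial.IsWeightedHomogeneous.induction_on with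
  | zero => simp only [pv, map_zero]; exact zero_mem _
  | add f g _ _ hf hg => simp only [pv, map_add] at *; exact add_mem hf hg
  | monomial d r hr =>
    simp only [pv, MvPolynomial.aeval_monomial]
    exact Submodule.smul_mem _ (algebraMap ℂ K r) (hr ▸ key d)

theorem sv_mem (h : z.Mul) : z.sv T ∈ z.Vt T := mem_Vt.2 fun a => h.pv_mem (T.hom a)

theorem rho_mem (h : z.Mul) {T : Tgt io A} (S : Syz T) {σ : A × I → K} (hσ : σ ∈ z.Vt T)
    (b : Fin S.r) : (fun q => ∑ a, pv (z.y q) (S.ρ b a) * σ (a, q)) ∈ z.V (S.e b) := by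
  have : (fun q => ∑ a, pv (z.y q) (S.ρ b a) * σ (a, q)) =
      ∑ a, (fun q => pv (z.y q) (S.ρ b a)) * fun q => σ (a, q) := by
    funext q
    simp [Finset.sum_apply]
  rw [this]
  refine sum_mem fun a _ => ?_
  rcases S.hom b a with h0 | ⟨κ, h1, h2⟩
  · rw [show ((fun q => pv (z.y q) (S.ρ b a)) * fun q => σ (a, q)) = 0 from
      funext fun q => by simp [h0, pv]]
    exact zero_mem _
  · exact h1 ▸ h.mul _ _ _ _ (h.pv_mem h2) (mem_Vt.1 hσ a)

end Mul

end Cfg

end Crest.Agent.X262.Vb
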