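import Crest.Agent.X262.Vb.Bas1
import Crest.Agent.X262.Hb.Sat2
import Crest.Agent.X262.Sym65.Defs

/-!
# Row 262, road B (helper90), part 5: the excess class and the virtual number

`cpz`, `cpF`, `evF`; invariance under gauge, field extension, reduction; `Rk`.
-/

set_option autoImplicit false
set_option linter.unusedSectionVars false

noncomputable section

namespace Crest.Agent.X262.Vb

open Crest.Agent.X277 Crest.Agent.X277.BD Crest.Agent.X277.Pst Crest.Agent.X277.BD.Cyc Polynomial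
open Crest.Agent.X262.Geo (od od_eq_zero essFT_Rf)
open Crest.Agent.X262.Hb
open Crest.Agent.X262.Node22 (scl chr chr_ne)
open Crest.Agent.X262.Sym65 (PF PX sm i1 qv cf Sup)

variable {J : Type} [Fintype J] [DecidableEq J] {io : J → Type} [∀ j, Fintype (io j)]
  [∀ j, DecidableEq (io j)] {A : Type} [Fintype A]
variable {I M : Type} [Fintype I] {K E L : Type} [Field K] [Algebra ℂ K] [Field E] [Algebra ℂ E]
  [Field L] [Algebra ℂ L]

variable (B : Th) (T : Tgt io A)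

/-- the Chern polynomial of the obstruction space -/
def cpz (z : Cfg io I K) : (B.H K)[X] := B.cp (z.ea T) (z.Eb T)

/-- the Chern polynomial of the obstruction space along places -/
def cpF (z : Cfg io I K) : PX B K := fun _ _ _ p => cpz B T (z.red p.toPl)

variable {B} in
/-- the insertions along places -/
def evF (z : Cfg io I K) (m : M → I) (Φ : MFam B io M) : PF B K :=
  fun E _ _ p => Φ E fun q => (z.red p.toPl).y (m q)

theorem exc_eq (z : Cfg io I K) (δ : B.H K) : exc B T z δ = (-(cpz B T z).divX).eval δ := rfl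

theorem trm_eq (z : Cfg io I K) (m : M → I) (Φ : MFam B io M) (W : RZ ℂ K) :
    trm B T z m Φ W = (qv (cpF B T z) (cf B (z.dv T)) * evF z m Φ) (Rf W) (LP.at W) := rfl

theorem vir_eq_sm (z : Cfg io I K) (m : M → I) (Φ : MFam B io M) :
    vir B T z m Φ = sm (z.dv T) (i1 (qv (cpF B T z) (cf B (z.dv T)) * evF z m Φ)) := rfl

theorem rd_eq {P : Type} [Fintype P] (p : LP K E) (U : Submodule K (P → K)) :
    rd p U = redS p.toPl U := rfl

variable {B T} {z z' : Cfg io I K} {m : M → I} {Φ Ψ : MFam B io M}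

theorem exc_congr {A' J' I' : Type} [Fintype J'] [DecidableEq J'] {io' : J' → Type}
    [∀ j, Fintype (io' j)] [∀ j, DecidableEq (io' j)] [Fintype A'] [Fintype I'] {T' : Tgt io' A'}
    {w : Cfg io' I' K} (h : cpz B T z = cpz B T' w) (δ : B.H K) : exc B T z δ = exc B T' w δ := by
  rw [exc_eq, exc_eq, h]

theorem sm_congr [Algebra.EssFiniteType ℂ K] {a : BD ℂ K} {f g : RZ ℂ K → ℂ} (h : ∀ W, Dvs W → a.val W ≠ 1 → f W = g W) :
    sm a f = sm a g :=
  finsum_congr fun W => finsum_congr fun hW => by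
    by_cases h1 : a.val W = 1
    · simp [(od_eq_zero hW).2 h1]
    · rw [h W hW h1]

theorem sm_eq_zero [Algebra.EssFiniteType ℂ K] {a : BD ℂ K} {f : RZ ℂ K → ℂ} (h : ∀ W, Dvs W → a.val W ≠ 1 → f W = 0) :
    sm a f = 0 := by
  rw [sm_congr h, sm]
  simp

theorem sm_smul (a : BD ℂ K) (c : ℂ) (f : RZ ℂ K → ℂ) : sm a (fun W => c * f W) = c * sm a f := by
  rw [sm, sm, mul_finsum]
  refine finsum_congr fun W => ?_
  by_cases h : Dvs W <;> simp [h, mul_left_comm]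

/-- the virtual number only depends on the divisor and the integrals over its components -/
theorem vir_congr [Algebra.EssFiniteType ℂ K] {A' J' I' M' : Type} [Fintype J'] [DecidableEq J'] {io' : J' → Type}
    [∀ j, Fintype (io' j)] [∀ j, DecidableEq (io' j)] [Fintype A'] [Fintype I'] {T' : Tgt io' A'}
    {w : Cfg io' I' K} {m' : M' → I'} {Ψ : MFam B io' M'} (hd : z.dv T = w.dv T')
    (h : ∀ W, Dvs W → (z.dv T).val W ≠ 1 →
      B.itg (Rf W) (trm B T z m Φ W) = B.itg (Rf W) (trm B T' w m' Ψ W)) :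
    vir B T z m Φ = vir B T' w m' Ψ := by
  have := sm_congr (a := z.dv T) h
  rw [vir, vir, ← hd]
  exact this

theorem vir_eq_zero [Algebra.EssFiniteType ℂ K]
    (h : ∀ W, Dvs W → (z.dv T).val W ≠ 1 → B.itg (Rf W) (trm B T z m Φ W) = 0) :
    vir B T z m Φ = 0 := sm_eq_zero h

theorem vir_smul (c : ℂ) : vir B T z m (c • Φ) = c * vir B T z m Φ := by
  rw [vir_eq_sm, vir_eq_sm, ← sm_smul]
  refine congrArg _ (funext fun W => ?_)
  change B.itg _ (_ * (c • Φ (Rf W) _)) = c * B.itg _ (_ * Φ (Rf W) _)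
  rw [mul_smul_comm, map_smul, smul_eq_mul]


theorem on_at (hz : z.NZ) {W : RZ ℂ K} (h : (z.dv T).val W ≠ 1) : (z.red (plV W)).On T :=
  Cfg.on_red_of T (lnr_plV W) hz h

/-! ### insertions -/

namespace MCls

variable (hΦ : MCls B T Φ) [Algebra.EssFiniteType ℂ K]
include hΦ

theorem geq (h : Cfg.Geq z z') (hz : z.NZ) (hO : z.On T) :
    (Φ K fun q => z'.y (m q)) = Φ K fun q => z.y (m q) := by
  obtain ⟨c, hc, rfl⟩ := h
  exact hΦ.scl K _ (fun q => c (m q)) (fun q => hc (m q)) (fun q => hz (m q)) fun q => hO (m q)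

variable [Algebra.EssFiniteType ℂ E]

theorem red0 {p : LP K E} (hz : z.Pr p.V) (hO : z.On T) :
    (Φ E fun q => (z.red0 p.toPl).y (m q)) = B.pb p (Φ K fun q => z.y (m q)) :=
  (hΦ.nat K E p _ (fun q => hz (m q)) fun q => hO (m q)).symm

theorem red (p : LP K E) (hz : z.NZ) (hO : z.On T) :
    (Φ E fun q => (z.red p.toPl).y (m q)) = B.pb p (Φ K fun q => z.y (m q)) := by
  have h1 := Cfg.geq_gau z (Cfg.nrm_ne p.V z)
  rw [← hΦ.geq h1 hz hO]
  exact hΦ.red0 (Cfg.pr_nrm hz _) ((h1.on T).2 hO)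

theorem map (α : K →ₐ[ℂ] E) (hz : z.NZ) (hO : z.On T) :
    (Φ E fun q => (z.map α).y (m q)) = B.pb (LP.hom α) (Φ K fun q => z.y (m q)) := by
  rw [← Cfg.red0_hom]
  exact hΦ.red0 (Cfg.pr_hom α hz) hO

omit [Algebra.EssFiniteType ℂ K] in
theorem evF_comp [Algebra.EssFiniteType ℂ L] (hz : z.NZ) {p : LP K E} (hO : (z.red p.toPl).On T)
    (q : LP E L) : evF z m Φ L (p.comp q) = B.pb q (evF z m Φ E p) := by
  have h1 := Cfg.red_comp p q hz
  rw [evF, evF, ← hΦ.red q (hz.red _) hO]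
  exact (hΦ.geq h1 (hz.red _) ((h1.on T).1 (hO.red T q.lnr (hz.red _)))).symm

end MCls

theorem MCls.add (h : MCls B T Φ) (h' : MCls B T Ψ) : MCls B T (Φ + Ψ) where
  scl E _ _ _ y c h1 h2 h3 := by
    change Φ E _ + Ψ E _ = Φ E _ + Ψ E _
    rw [h.scl E y c h1 h2 h3, h'.scl E y c h1 h2 h3]
  nat K E _ _ _ _ _ _ p y h1 h2 := by
    change B.pb p (Φ K _ + Ψ K _) = Φ E _ + Ψ E _
    rw [map_add, h.nat K E p y h1 h2, h'.nat K E p y h1 h2]

theorem MCls.mul (h : MCls B T Φ) (h' : MCls B T Ψ) : MCls B T (Φ * Ψ) where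
  scl E _ _ _ y c h1 h2 h3 := by
    change Φ E _ * Ψ E _ = Φ E _ * Ψ E _
    rw [h.scl E y c h1 h2 h3, h'.scl E y c h1 h2 h3]
  nat K E _ _ _ _ _ _ p y h1 h2 := by
    change B.pb p (Φ K _ * Ψ K _) = Φ E _ * Ψ E _
    rw [map_mul, h.nat K E p y h1 h2, h'.nat K E p y h1 h2]

theorem MCls.smul (h : MCls B T Φ) (a : ℂ) : MCls B T (a • Φ) where
  scl E _ _ _ y c h1 h2 h3 := by
    change a • Φ E _ = a • Φ E _
    rw [h.scl E y c h1 h2 h3]
  nat K E _ _ _ _ _ _ p y h1 h2 := by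
    change B.pb p (a • Φ K _) = a • Φ E _
    rw [map_smul, h.nat K E p y h1 h2]

theorem MCls.one : MCls B T (1 : MFam B io M) where
  scl _ _ _ _ _ _ _ _ _ := rfl
  nat _ _ _ _ _ _ _ _ p _ _ _ := map_one (B.pb p)

theorem MCls.zero : MCls B T (0 : MFam B io M) where
  scl _ _ _ _ _ _ _ _ _ := rfl
  nat _ _ _ _ _ _ _ _ p _ _ _ := map_zero (B.pb p)

theorem MCls.sum {ι : Type*} (s : Finset ι) {Φ : ι → MFam B io M} (h : ∀ i ∈ s, MCls B T (Φ i)) :
    MCls B T (∑ i ∈ s, Φ i) :=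
  Finset.sum_induction _ _ (fun _ _ => MCls.add) MCls.zero h

theorem MCls.comp {M' : Type} (h : MCls B T Φ) (e : M → M') :
    MCls B T (M := M') fun E _ _ y => Φ E fun q => y (e q) where
  scl E _ _ _ _ c h1 h2 h3 := h.scl E _ (fun q => c (e q)) (fun q => h1 (e q)) (fun q => h2 (e q))
    fun q => h3 (e q)
  nat K E _ _ _ _ _ _ p _ h1 h2 := h.nat K E p _ (fun q => h1 (e q)) fun q => h2 (e q)

theorem Cls.at {α : Fam B io} (h : Cls B T α) (x : M) :
    MCls B T (M := M) fun E _ _ y => α E (y x) where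
  scl E _ _ _ _ c h1 h2 h3 := h.scl E _ (c x) (h1 x) (h2 x) (h3 x)
  nat K E _ _ _ _ _ _ p _ h1 h2 := h.nat K E p _ (h1 x) (h2 x)

theorem MCls.prd [Fintype M] {α : M → Fam B io} (h : ∀ x, Cls B T (α x)) : MCls B T (prd α) where
  scl E _ _ _ _ c h1 h2 h3 := Finset.prod_congr rfl fun x _ => (h x).scl E _ (c x) (h1 x) (h2 x) (h3 x)
  nat K E _ _ _ _ _ _ p _ h1 h2 := by
    rw [Vb.prd, map_prod]
    exact Finset.prod_congr rfl fun x _ => (h x).nat K E p _ (h1 x) (h2 x)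

theorem cls_hc (hB : B.Ax) (j : J) : Cls B T (hc B j) where
  scl E _ _ _ y c h1 h2 _ := by
    change B.c1 (ln (scl c y) j) = _
    rw [ln_scl h2 h1, map_add, hB.c1_pr, add_zero, hc]
  nat K E _ _ _ _ _ _ p y h1 _ := by rw [hc, hc, ln_red h1, hB.pb_c1_res p (h1.val_ln j)]

/-! ### the Chern polynomial -/

section Cp

variable (hB : B.Ax) [Algebra.EssFiniteType ℂ K]
include hB

theorem cpz_geq (h : Cfg.Geq z z') (hz : z.NZ) : cpz B T z' = cpz B T z := by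
  obtain ⟨c, hc, rfl⟩ := h
  rw [cpz, Cfg.Eb_gau T hc]
  exact hB.cp_dia (fun x : A × I => chr_ne (hc x.2) _) (congrFun (Cfg.ea_gau T hz hc)) _

theorem exc_geq (h : Cfg.Geq z z') (hz : z.NZ) (δ : B.H K) : exc B T z' δ = exc B T z δ :=
  exc_congr (cpz_geq hB h hz) δ

theorem ty_exc {δ : B.H K} (hδ : δ ∈ B.ty K 1 1) :
    exc B T z δ ∈ B.ty K (Module.finrank K (z.Eb T) - 1) (Module.finrank K (z.Eb T) - 1) := by
  rcases h : Module.finrank K (z.Eb T) with _ | r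
  · rw [exc, Submodule.finrank_eq_zero.1 h, hB.cq_bot, eval_zero]
    exact zero_mem _
  · exact hB.ty_eval_cq h hδ

variable [Algebra.EssFiniteType ℂ E]

theorem cpz_red0 {p : LP K E} (hz : z.Pr p.V) (h : (z.red0 p.toPl).Eb T = redS p.toPl (z.Eb T)) :
    cpz B T (z.red0 p.toPl) = (cpz B T z).map (B.pb p : B.H K →+* B.H E) := by
  rw [cpz, cpz, hB.cp_rd (hz.val_ea T), h, Cfg.ea_red0 T hz, rd_eq]

theorem cpz_map (α : K →ₐ[ℂ] E) (z : Cfg io I K) :
    cpz B T (z.map α) = (cpz B T z).map (B.pb (LP.hom α) : B.H K →+* B.H E) := by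
  rw [cpz, cpz, hB.cp_rd fun x => val_hom α _, Cfg.Eb_map, Cfg.ea_map, rd_eq, redS_hom]
  rfl

omit hB [Algebra.EssFiniteType ℂ K] [Algebra.EssFiniteType ℂ E] in
theorem exc_of_map {I' : Type} [Fintype I'] {w : Cfg io I' E} {p : LP K E}
    (h : cpz B T w = (cpz B T z).map (B.pb p : B.H K →+* B.H E)) (δ : B.H K) :
    exc B T w (B.pb p δ) = B.pb p (exc B T z δ) := by
  rw [exc_eq, exc_eq, pb_eval, h]
  congr 1
  ext n
  simp only [coeff_neg, coeff_divX, coeff_map, map_neg]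

theorem exc_map (α : K →ₐ[ℂ] E) (z : Cfg io I K) (δ : B.H K) :
    exc B T (z.map α) (B.pb (LP.hom α) δ) = B.pb (LP.hom α) (exc B T z δ) :=
  exc_of_map (cpz_map hB α z) δ

end Cp

/-! ### gauge invariance -/

theorem trm_geq (hB : B.Ax) [Algebra.EssFiniteType ℂ K] (hΦ : MCls B T Φ) (h : Cfg.Geq z z')
    (hz : z.NZ) {W : RZ ℂ K} (hW : Dvs W) (hO : (z.red (plV W)).On T) :
    trm B T z' m Φ W = trm B T z m Φ W := by
  have := essFT_Rf hW
  rw [trm, trm, h.dv T hz, exc_geq hB (h.red hz _) (hz.red _), hΦ.geq (h.red hz _) (hz.red _) hO]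

theorem vir_geq (hB : B.Ax) [Algebra.EssFiniteType ℂ K] (hΦ : MCls B T Φ) (h : Cfg.Geq z z')
    (hz : z.NZ) : vir B T z' m Φ = vir B T z m Φ :=
  (vir_congr (h.dv T hz).symm fun _ hW h1 => by rw [trm_geq hB hΦ h hz hW (on_at hz h1)]).symm

theorem vir_gau (hB : B.Ax) [Algebra.EssFiniteType ℂ K] (hΦ : MCls B T Φ) {c : I → J → K}
    (hz : z.NZ) (hc : ∀ q j, c q j ≠ 0) : vir B T (z.gau c) m Φ = vir B T z m Φ :=
  vir_geq hB hΦ (Cfg.geq_gau z hc) hz

theorem vir_typ (hB : B.Ax) [Algebra.EssFiniteType ℂ K] (hz : z.NZ) {p q : ℕ}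
    (h : MTy B T Φ p q) (hpq : p ≠ q) : vir B T z m Φ = 0 :=
  vir_eq_zero fun W hW h1 => by
    have := essFT_Rf hW
    refine hB.ty_itg (hB.ty_mul (ty_exc hB (hB.ty_pb _ (hB.ty_c1 _)))
      (h _ _ (fun x => hz.red _ (m x)) fun x => on_at hz h1 (m x))) ?_
    omega

/-! ### constant rank -/

variable (T) in
/-- the obstruction space commutes with specialisation inside the target and contains the
direction of the section -/
structure Rk (z : Cfg io I K) : Prop where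
  nz : z.NZ
  eb : ∀ {E L : Type} [Field E] [Algebra ℂ E] [Field L] [Algebra ℂ L] (p : LP K E) (q : LP E L),
    (z.red p.toPl).On T → ((z.red p.toPl).red q.toPl).Eb T =
      redS q.toPl (((z.red p.toPl).gau ((z.red p.toPl).nrm q.V)).Eb T)
  sv : ∀ {E : Type} [Field E] [Algebra ℂ E] (p : LP K E), (z.red p.toPl).On T → ∀ u : K,
    (∀ x, u * (z.gau (z.nrm p.V)).sv T x ∈ p.V.1) →
    (fun x => p.r (u * (z.gau (z.nrm p.V)).sv T x)) ∈ (z.red p.toPl).Eb T

theorem rk_of (hR : RankStmt) {c : ℕ} {d : J → ℕ} (hG : Good T c d) : ∃ N : ℕ,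
    ∀ {I K : Type} [Fintype I] [Field K] [Algebra ℂ K] (ξ : Dat io d I K), ξ.cfg.NZ →
      ξ.NrmUp N → Rk T ξ.cfg := by
  obtain ⟨N, hN⟩ := hR T c d hG
  exact ⟨N, fun ξ hz h => ⟨hz, fun p q hO => (hN ξ h p hO).1 q _ (Cfg.nrm_ne _ _)
    (Cfg.pr_nrm (hz.red _) _), fun p hO => (hN ξ h p hO).2⟩⟩

namespace Rk

variable (h : Rk T z) (hB : B.Ax)
include h hB

theorem cpF_comp [Algebra.EssFiniteType ℂ E] [Algebra.EssFiniteType ℂ L] {p : LP K E}
    (hO : (z.red p.toPl).On T) (q : LP E L) :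
    cpF B T z L (p.comp q) = (cpF B T z E p).map (B.pb q : B.H E →+* B.H L) := by
  have h1 := h.nz.red p.toPl
  rw [cpF, cpF, ← cpz_geq hB (Cfg.red_comp p q h.nz) (h.nz.red _),
    ← cpz_geq hB (Cfg.geq_gau _ (Cfg.nrm_ne q.V (z.red p.toPl))) h1]
  exact cpz_red0 hB (Cfg.pr_nrm h1 _) (h.eb p q hO)


omit hB in
/-- the normalised section: a nonzero vector of the obstruction space which spans `O(D)` -/
theorem exists_dir (hO : ¬ z.On T) {p : LP K E} (hp : (z.red p.toPl).On T) :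
    ∃ s ∈ (z.red p.toPl).Eb T, s ≠ 0 ∧ ∃ g : K, p.V.v g = (z.dv T).val p.V ∧
      p.res (z.dv T - pr ℂ g) = -dst ((z.red p.toPl).ea T) ⊥ s := by
  have hP := Cfg.pr_nrm h.nz p.V
  have hd := Cfg.dv_gau T h.nz (Cfg.nrm_ne p.V z)
  have h0 : (z.gau (z.nrm p.V)).sv T ≠ 0 := fun h0 =>
    hO ((Cfg.on_gau T (Cfg.nrm_ne p.V z)).1 ((Cfg.on_iff T).2 h0))
  have hg := gen_ne (z.dv T) p.V
  have h1 : nm ((z.gau (z.nrm p.V)).ea T) p.V ((z.dv T).gen p.V • (z.gau (z.nrm p.V)).sv T) = 1 := by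
    rw [nm_smul, v_gen, ← hd, Cfg.dv, val_neg, val_sz h0, inv_mul_cancel₀ (nm_pos h0).ne']
  have h2 : Itg p ((z.dv T).gen p.V • (z.gau (z.nrm p.V)).sv T) := (itg_iff (hP.val_ea T)).2 h1.le
  have h3 : rv p ((z.dv T).gen p.V • (z.gau (z.nrm p.V)).sv T) ≠ 0 :=
    (rv_eq_zero (hP.val_ea T) h2).not.2 h1.not_lt
  refine ⟨_, h.sv p hp _ h2, h3, _, v_gen _ _, ?_⟩
  have h4 : z.dv T - pr ℂ ((z.dv T).gen p.V) =
      -sz ((z.dv T).gen p.V • (z.gau (z.nrm p.V)).sv T) ((z.gau (z.nrm p.V)).ea T) := by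
    rw [sz_smul h0 hg, neg_add, ← Cfg.dv, hd]
    abel
  rw [h4, Pl.res_neg (by rw [val_sz (smul_ne_zero hg h0), h1]), res_sz p.toPl (hP.val_ea T) h1,
    Cfg.red, Cfg.ea_red0 T hP]
  exact congrArg _ (sz_eq_dst h3 _)

/-- the class of the divisor is a root of the Chern polynomial -/
theorem root [Algebra.EssFiniteType ℂ E] (hO : ¬ z.On T) {p : LP K E}
    (hp : (z.red p.toPl).On T) : (cpF B T z E p).eval (cf B (z.dv T) E p) = 0 := by
  obtain ⟨s, h1, h2, g, h3, h4⟩ := h.exists_dir hO hp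
  rw [cf, hB.pb_c1_gen p h3, h4]
  exact hB.eval_cp_line h1 h2

theorem root' [Algebra.EssFiniteType ℂ E] {p : LP K E} (hp : p.V ∈ Sup (z.dv T)) :
    (cpF B T z E p).eval (cf B (z.dv T) E p) = 0 :=
  h.root hB (fun h0 => hp (by rw [Cfg.dv_of_on T h0, val_zero])) (Cfg.on_red_of T p.lnr h.nz hp)

end Rk

theorem Rk.geq (h : Rk T z) (h' : Cfg.Geq z z') : Rk T z' where
  nz := h'.nz h.nz
  eb p q hO := by
    have h1 := h'.red h.nz p.toPl
    have h2 := h.nz.red p.toPl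
    have h3 := h.eb p q ((h1.on T).1 hO)
    have h4 := ((Cfg.geq_gau _ (Cfg.nrm_ne q.V (z.red p.toPl))).symm.trans h1).trans
      (Cfg.geq_gau _ (Cfg.nrm_ne q.V (z'.red p.toPl)))
    obtain ⟨c, hc, h5⟩ := h4
    have h6 := Cfg.pr_nrm h2 q.V
    have h7 : ∀ x j, q.V.v (c x j) = 1 := fun x j => by
      rw [Prim.v_eq (h6 x).nz (hc x) ((h5 ▸ Cfg.pr_nrm (h1.nz h2) q.V) x) j, (h6 x).val_ln, inv_one]
    rw [Cfg.red, h5, Cfg.red0_gau _ h7 h6, Cfg.Eb_gau T hc,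
      Cfg.Eb_gau T fun x j => Pl.r_ne_zero_iff.2 (h7 x j), redS_sclS _ fun x => by simp [chr, h7],
      ← h3]
    congr 1
    funext x
    rw [chr, chr, Tree87.r_prod _ fun j _ => pow_mem (RZ.le_one_iff.1 (h7 _ j).le) _]
    exact Finset.prod_congr rfl fun j _ => (Pl.r_pow (RZ.le_one_iff.1 (h7 _ j).le) _).symm
  sv p hO u hu := by
    have h4 := ((Cfg.geq_gau _ (Cfg.nrm_ne p.V z)).symm.trans h').trans
      (Cfg.geq_gau _ (Cfg.nrm_ne p.V z'))
    obtain ⟨c, hc, h5⟩ := h4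
    have h6 := Cfg.pr_nrm h.nz p.V
    have h7 : ∀ x j, p.V.v (c x j) = 1 := fun x j => by
      rw [Prim.v_eq (h6 x).nz (hc x) ((h5 ▸ Cfg.pr_nrm (h'.nz h.nz) p.V) x) j, (h6 x).val_ln,
        inv_one]
    have h8 : ∀ x : A × I, p.V.v (chr (c x.2) (T.k x.1)) = 1 := fun x => by simp [chr, h7]
    rw [h5, Cfg.sv_gau] at hu
    have h9 : ∀ x, u * (z.gau (z.nrm p.V)).sv T x ∈ p.V.1 := fun x => by
      have := RZ.le_one_iff.2 (hu x)
      rw [mul_left_comm, map_mul, h8, one_mul] at this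
      exact RZ.le_one_iff.1 this
    have h10 := h.sv p (((h'.red h.nz p.toPl).on T).1 hO) u h9
    rw [Cfg.red, h5, Cfg.red0_gau _ h7 h6, Cfg.Eb_gau T fun x j => Pl.r_ne_zero_iff.2 (h7 x j),
      Cfg.sv_gau]
    refine ⟨_, h10, funext fun x => ?_⟩
    change _ * p.r _ = p.r _
    rw [mul_left_comm, Pl.r_mul (RZ.le_one_iff.1 (h8 x).le) (h9 x), chr,
      Tree87.r_prod _ fun j _ => pow_mem (RZ.le_one_iff.1 (h7 _ j).le) _]
    congr 1
    exact Finset.prod_congr rfl fun j _ => (Pl.r_pow (RZ.le_one_iff.1 (h7 _ j).le) _).symm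

end Crest.Agent.X262.Vb
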