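import Crest.Agent.X262.Vb.Defs
import Crest.Agent.X262.Hb.Sat0
import Crest.Agent.X262.Node22.Alg
import Crest.Agent.X262.Tree87.Lin

-- ▼ part X262/Vb/Ech
section

/-!
# Row 262, road B (helper90), part 2: echelon bases; `redS`, `mapS`, `sclS`
-/

set_option autoImplicit false
set_option linter.unusedSectionVars false

noncomputable section

namespace Crest.Agent.X262.Vb

open Crest.Agent.X277 Crest.Agent.X277.BD Crest.Agent.X277.BD.Cyc
open Crest.Agent.X262.Hb

variable {P : Type} [Fintype P] {K E L : Type} [Field K] [Algebra ℂ K] [Field E] [Algebra ℂ E]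
  [Field L] [Algebra ℂ L]

open Classical in
/-- `u s`, `s ∈ S`, is the echelon basis of `U` with pivots `S` -/
structure Ech (U : Submodule K (P → K)) (S : Finset P) (u : P → P → K) : Prop where
  mem : ∀ s ∈ S, u s ∈ U
  piv : ∀ s ∈ S, ∀ t ∈ S, u s t = if s = t then 1 else 0
  exp : ∀ w ∈ U, ∀ x, w x = ∑ s ∈ S, w s * u s x

namespace Ech

variable {U : Submodule K (P → K)} {S : Finset P} {u : P → P → K}

theorem mem_iff (h : Ech U S u) {w : P → K} : w ∈ U ↔ ∀ x, w x = ∑ s ∈ S, w s * u s x := by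
  refine ⟨h.exp w, fun hw => ?_⟩
  have : w = ∑ s ∈ S, w s • u s := by
    funext x
    rw [hw x, Finset.sum_apply]
    rfl
  rw [this]
  exact sum_mem fun s hs => U.smul_mem _ (h.mem s hs)

theorem unique {U' : Submodule K (P → K)} (h : Ech U S u) (h' : Ech U' S u) : U = U' := by
  ext w
  rw [h.mem_iff, h'.mem_iff]

theorem sum_piv (h : Ech U S u) (c : P → K) {t : P} (ht : t ∈ S) : ∑ s ∈ S, c s * u s t = c t := by
  classical
  rw [Finset.sum_eq_single t (fun s hs hst => by rw [h.piv s hs t ht, if_neg hst, mul_zero])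
    fun h0 => (h0 ht).elim, h.piv t ht t ht, if_pos rfl, mul_one]

theorem sum_mem (h : Ech U S u) (c : P → K) : (fun x => ∑ s ∈ S, c s * u s x) ∈ U :=
  h.mem_iff.2 fun x => Finset.sum_congr rfl fun s hs => by rw [h.sum_piv c hs]

theorem finrank_eq (h : Ech U S u) : Module.finrank K U = S.card := by
  let e : U ≃ₗ[K] (S → K) := LinearEquiv.ofBijective
    ((LinearMap.funLeft K K (Subtype.val : S → P)).comp U.subtype) ⟨?_, fun c => ?_⟩
  · rw [e.finrank_eq, Module.finrank_fintype_fun_eq_card, Fintype.card_coe]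
  · rw [injective_iff_map_eq_zero]
    intro w hw
    refine Subtype.ext (funext fun x => ?_)
    rw [h.exp w w.2 x]
    exact Finset.sum_eq_zero fun s hs => by
      rw [show w.1 s = 0 from congrFun hw ⟨s, hs⟩, zero_mul]
  · classical
    refine ⟨⟨_, h.sum_mem fun s => if hs : s ∈ S then c ⟨s, hs⟩ else 0⟩, funext fun t => ?_⟩
    change ∑ s ∈ S, _ * u s t = _
    rw [h.sum_piv _ t.2, dif_pos t.2]

/-- a spanning family which satisfies the echelon equations -/
theorem of_span {G : Set (P → K)} (h1 : ∀ s ∈ S, u s ∈ G)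
    (h2 : ∀ s ∈ S, ∀ t ∈ S, u s t = open Classical in if s = t then 1 else 0)
    (h3 : ∀ w ∈ G, ∀ x, w x = ∑ s ∈ S, w s * u s x) : Ech (Submodule.span K G) S u := by
  refine ⟨fun s hs => Submodule.subset_span (h1 s hs), h2, fun w hw => ?_⟩
  induction hw using Submodule.span_induction with
  | mem w hw => exact h3 w hw
  | zero => simp
  | add a b _ _ ha hb =>
    intro x
    simp only [Pi.add_apply, add_mul, Finset.sum_add_distrib]
    rw [← ha, ← hb]
  | smul c a _ ha =>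
    intro x
    simp only [Pi.smul_apply, smul_eq_mul, mul_assoc, ← Finset.mul_sum]
    rw [← ha]

theorem red (h : Ech U S u) (p : Pl ℂ K ℂ E) (hu : ∀ s ∈ S, ∀ x, u s x ∈ p.V.1) :
    Ech (redS p U) S fun s x => p.r (u s x) := by
  refine of_span (fun s hs => ⟨u s, h.mem s hs, hu s hs, rfl⟩) (fun s hs t ht => ?_) ?_
  · rw [h.piv s hs t ht]
    split_ifs <;> simp
  · rintro _ ⟨w, hw, hi, rfl⟩ x
    have h1 : ∀ S' ⊆ S, (∑ s ∈ S', w s * u s x) ∈ p.V.1 ∧
        p.r (∑ s ∈ S', w s * u s x) = ∑ s ∈ S', p.r (w s) * p.r (u s x) := by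
      intro S' hS'
      classical
      induction S' using Finset.induction_on with
      | empty => simp
      | insert a S' ha ih =>
        have h2 := ih ((Finset.subset_insert _ _).trans hS')
        have h3 := hu a (hS' (Finset.mem_insert_self _ _)) x
        rw [Finset.sum_insert ha, Finset.sum_insert ha, Pl.r_add (mul_mem (hi a) h3) h2.1, h2.2,
          Pl.r_mul (hi a) h3]
        exact ⟨add_mem (mul_mem (hi a) h3) h2.1, rfl⟩
    change p.r (w x) = _
    rw [h.exp w hw x, (h1 S le_rfl).2]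

theorem map (h : Ech U S u) (α : K →ₐ[ℂ] E) : Ech (mapS α U) S fun s x => α (u s x) := by
  refine of_span (fun s hs => ⟨u s, h.mem s hs, rfl⟩) (fun s hs t ht => ?_) ?_
  · rw [h.piv s hs t ht]
    split_ifs <;> simp
  · rintro _ ⟨w, hw, rfl⟩ x
    change α (w x) = _
    rw [h.exp w hw x, map_sum]
    simp only [map_mul]

end Ech

theorem exists_ech (V : RZ ℂ K) (U : Submodule K (P → K)) :
    ∃ (S : Finset P) (u : P → P → K), Ech U S u ∧ ∀ s ∈ S, ∀ x, u s x ∈ V.1 := by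
  classical
  induction hn : Module.finrank K U using Nat.strong_induction_on generalizing U with
  | _ n ih =>
  by_cases h0 : U = ⊥
  · refine ⟨∅, 0, ⟨by simp, by simp, fun w hw x => ?_⟩, by simp⟩
    rw [h0, Submodule.mem_bot] at hw
    simp [hw]
  obtain ⟨w0, hw0, hne⟩ := Submodule.exists_mem_ne_zero_of_ne_bot h0
  obtain ⟨x1, hx1⟩ := Function.ne_iff.1 hne
  obtain ⟨x0, -, hx0⟩ := Finset.exists_max_image Finset.univ (fun x => V.v (w0 x)) ⟨x1, by simp⟩
  have h1 : w0 x0 ≠ 0 := fun h => hx1 (by simpa [h] using hx0 x1 (by simp))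
  let w : P → K := (w0 x0)⁻¹ • w0
  have hw : w ∈ U := U.smul_mem _ hw0
  have hw1 : w x0 = 1 := inv_mul_cancel₀ h1
  have hwV : ∀ x, w x ∈ V.1 := fun x => by
    have := (RZ.le_iff h1).1 (hx0 x (by simp))
    rwa [div_eq_inv_mul] at this
  let U' : Submodule K (P → K) := U ⊓ LinearMap.ker (LinearMap.proj x0)
  have hlt : U' < U := lt_of_le_of_ne inf_le_left fun h => by
    have : w ∈ U' := h ▸ hw
    exact one_ne_zero (hw1.symm.trans this.2)
  obtain ⟨S, u, hE, hu⟩ := ih _ (hn ▸ Submodule.finrank_lt_finrank_of_lt hlt) U' rfl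
  have hx0S : x0 ∉ S := fun h => by
    have h2 : u x0 x0 = 0 := (hE.mem x0 h).2
    rw [hE.piv x0 h x0 h, if_pos rfl] at h2
    exact one_ne_zero h2
  have hu0 : ∀ s ∈ S, u s x0 = 0 := fun s hs => (hE.mem s hs).2
  let w' : P → K := fun x => w x - ∑ s ∈ S, w s * u s x
  have hw' : w' ∈ U := sub_mem hw (hE.sum_mem w).1
  have hw'0 : w' x0 = 1 := by
    simp only [w', hw1]
    rw [Finset.sum_eq_zero fun s hs => by rw [hu0 s hs, mul_zero], sub_zero]
  have hw'S : ∀ t ∈ S, w' t = 0 := fun t ht => by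
    simp only [w']
    rw [hE.sum_piv w ht, sub_self]
  refine ⟨insert x0 S, Function.update u x0 w', ⟨fun s hs => ?_, fun s hs t ht => ?_,
    fun a ha x => ?_⟩, fun s hs x => ?_⟩
  · rcases Finset.mem_insert.1 hs with rfl | hs
    · rwa [Function.update_self]
    · rw [Function.update_of_ne (ne_of_mem_of_not_mem hs hx0S)]
      exact (hE.mem s hs).1
  · replace hs := Finset.mem_insert.1 hs
    rcases hs with rfl | hs
    · rw [Function.update_self]
      rcases Finset.mem_insert.1 ht with rfl | ht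
      · rw [hw'0, if_pos rfl]
      · rw [hw'S t ht, if_neg (ne_of_mem_of_not_mem ht hx0S).symm]
    · rw [Function.update_of_ne (ne_of_mem_of_not_mem hs hx0S)]
      rcases Finset.mem_insert.1 ht with h4 | h4
      · rw [h4, hu0 s hs, if_neg (ne_of_mem_of_not_mem hs hx0S)]
      · exact hE.piv s hs t h4
  · have h2 : a - a x0 • w' ∈ U' := ⟨sub_mem ha (U.smul_mem _ hw'), by
      change a x0 - a x0 * w' x0 = 0
      rw [hw'0, mul_one, sub_self]⟩
    have h3 := hE.exp _ h2 x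
    rw [Finset.sum_insert hx0S, Function.update_self, Finset.sum_congr rfl fun s hs => by
      rw [Function.update_of_ne (ne_of_mem_of_not_mem hs hx0S)]]
    rw [Finset.sum_congr rfl fun s hs => by
      rw [show (a - a x0 • w') s = a s from by
        change a s - a x0 * w' s = _
        rw [hw'S s hs, mul_zero, sub_zero]]] at h3
    rw [← h3]
    change a x = _ + (a x - a x0 * w' x)
    ring
  · rcases Finset.mem_insert.1 hs with rfl | hs
    · rw [Function.update_self]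
      exact sub_mem (hwV x) (sum_mem fun s hs => mul_mem (hwV s) (hu s hs x))
    · rw [Function.update_of_ne (ne_of_mem_of_not_mem hs hx0S)]
      exact hu s hs x

variable {U U' : Submodule K (P → K)}

theorem finrank_redS (p : Pl ℂ K ℂ E) (U : Submodule K (P → K)) :
    Module.finrank E (redS p U) = Module.finrank K U := by
  obtain ⟨S, u, h, hu⟩ := exists_ech p.V U
  rw [(h.red p hu).finrank_eq, h.finrank_eq]

theorem finrank_mapS (α : K →ₐ[ℂ] E) (U : Submodule K (P → K)) :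
    Module.finrank E (mapS α U) = Module.finrank K U := by
  obtain ⟨S, u, h, -⟩ := exists_ech (RZ.top ℂ K) U
  rw [(h.map α).finrank_eq, h.finrank_eq]

theorem mem_redS (p : Pl ℂ K ℂ E) {u : P → K} (hu : u ∈ U) (hi : ∀ x, u x ∈ p.V.1) :
    (fun x => p.r (u x)) ∈ redS p U := Submodule.subset_span ⟨u, hu, hi, rfl⟩

theorem mem_mapS (α : K →ₐ[ℂ] E) {u : P → K} (hu : u ∈ U) : (fun x => α (u x)) ∈ mapS α U :=
  Submodule.subset_span ⟨u, hu, rfl⟩



theorem redS_le {W : Submodule E (P → E)} {p : Pl ℂ K ℂ E}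
    (h : ∀ u ∈ U, (∀ x, u x ∈ p.V.1) → (fun x => p.r (u x)) ∈ W) : redS p U ≤ W :=
  Submodule.span_le.2 fun _ ⟨u, h1, h2, h3⟩ => h3 ▸ h u h1 h2

theorem mapS_le {W : Submodule E (P → E)} {α : K →ₐ[ℂ] E}
    (h : ∀ u ∈ U, (fun x => α (u x)) ∈ W) : mapS α U ≤ W :=
  Submodule.span_le.2 fun _ ⟨u, h1, h3⟩ => h3 ▸ h u h1

/-- for a surjective place every element of the reduction is a reduction -/
theorem exists_of_mem_redS {p : Pl ℂ K ℂ E} (hs : Function.Surjective p.φ) {w : P → E}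
    (hw : w ∈ redS p U) : ∃ u ∈ U, (∀ x, u x ∈ p.V.1) ∧ w = fun x => p.r (u x) := by
  induction hw using Submodule.span_induction with
  | mem w hw => exact hw
  | zero => exact ⟨0, zero_mem _, fun _ => zero_mem _, by funext x; simp⟩
  | add a b _ _ ha hb =>
    obtain ⟨u, h1, h2, rfl⟩ := ha
    obtain ⟨u', h3, h4, rfl⟩ := hb
    exact ⟨u + u', add_mem h1 h3, fun x => add_mem (h2 x) (h4 x),
      funext fun x => (Pl.r_add (h2 x) (h4 x)).symm⟩
  | smul c a _ ha =>
    obtain ⟨u, h1, h2, rfl⟩ := ha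
    obtain ⟨c', rfl⟩ := hs c
    refine ⟨(c' : K) • u, U.smul_mem _ h1, fun x => mul_mem c'.2 (h2 x), funext fun x => ?_⟩
    change _ = p.r (c' * u x)
    rw [Pl.r_mul c'.2 (h2 x), Pl.r_coe]
    rfl

theorem r_hom (α : K →ₐ[ℂ] E) (x : K) : (LP.hom α).r x = α x := Pl.r_ofHom _ _ x

theorem mem_hom (α : K →ₐ[ℂ] E) (x : K) : x ∈ (LP.hom α).V.1 := trivial

theorem mem_comp {p : LP K E} {q : LP E L} {x : K} :
    x ∈ (p.comp q).V.1 ↔ x ∈ p.V.1 ∧ p.r x ∈ q.V.1 := Iff.rfl

theorem r_comp (p : LP K E) (q : LP E L) {x : K} (hx : x ∈ p.V.1) :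
    (p.comp q).r x = q.r (p.r x) := by
  by_cases h : p.r x ∈ q.V.1
  · exact Pl.r_eq _ (mem_comp.2 ⟨hx, h⟩)
  · rw [Pl.r, Pl.r, dif_neg h, dif_neg fun h1 => h (mem_comp.1 h1).2]

theorem redS_hom (α : K →ₐ[ℂ] E) (U : Submodule K (P → K)) :
    redS (LP.hom α).toPl U = mapS α U := by
  unfold redS mapS
  congr 1
  ext w
  simp only [r_hom, mem_hom, implies_true, true_and, Set.mem_ofPred_eq]

theorem redS_comp (p : LP K E) (q : LP E L) (U : Submodule K (P → K)) :
    redS (p.comp q).toPl U = redS q.toPl (redS p.toPl U) := by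
  obtain ⟨S, u, h, hu⟩ := exists_ech (p.comp q).V U
  have h1 := h.red (p.comp q).toPl hu
  have h2 := (h.red p.toPl fun s hs x => (mem_comp.1 (hu s hs x)).1).red q.toPl
    fun s hs x => (mem_comp.1 (hu s hs x)).2
  refine Ech.unique ⟨fun s hs => ?_, h2.piv, fun w hw x => ?_⟩ h2
  · have := h1.mem s hs
    rwa [show (fun x => (p.comp q).r (u s x)) = fun x => q.r (p.r (u s x)) from
      funext fun x => r_comp p q (mem_comp.1 (hu s hs x)).1] at this
  · rw [h1.exp w hw x]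
    exact Finset.sum_congr rfl fun s hs => by rw [r_comp p q (mem_comp.1 (hu s hs x)).1]

theorem mapS_mapS (α : K →ₐ[ℂ] E) (β : E →ₐ[ℂ] L) (U : Submodule K (P → K)) :
    mapS β (mapS α U) = mapS (β.comp α) U := by
  obtain ⟨S, u, h, -⟩ := exists_ech (RZ.top ℂ K) U
  exact ((h.map α).map β).unique (h.map (β.comp α))

theorem mapS_id (U : Submodule K (P → K)) : mapS (AlgHom.id ℂ K) U = U := by
  obtain ⟨S, u, h, -⟩ := exists_ech (RZ.top ℂ K) U
  exact (h.map _).unique h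

theorem map_mem_mapS_iff (α : K →ₐ[ℂ] E) {w : P → K} : (fun x => α (w x)) ∈ mapS α U ↔ w ∈ U := by
  obtain ⟨S, u, h, -⟩ := exists_ech (RZ.top ℂ K) U
  rw [(h.map α).mem_iff, h.mem_iff]
  refine forall_congr' fun x => ?_
  rw [← (α : K →+* E).injective.eq_iff, map_sum]
  simp only [map_mul, RingHom.coe_coe]

/-- membership in an extension of scalars is tested by semilinear functionals -/
theorem mem_mapS_iff (α : K →ₐ[ℂ] E) {w : P → E} : w ∈ mapS α U ↔
    ∀ φ : E →+ K, (∀ c x, φ (α c * x) = c * φ x) → (fun x => φ (w x)) ∈ U := by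
  obtain ⟨S, u, h, -⟩ := exists_ech (RZ.top ℂ K) U
  rw [(h.map α).mem_iff]
  refine ⟨fun hw φ hφ => h.mem_iff.2 fun x => ?_, fun hw x => ?_⟩
  · rw [hw x, map_sum]
    exact Finset.sum_congr rfl fun s _ => by rw [mul_comm, hφ, mul_comm]
  · let _ : Algebra K E := (α : K →+* E).toAlgebra
    rw [← sub_eq_zero, ← Module.forall_dual_apply_eq_zero_iff K]
    intro φ
    have hφ : ∀ c x, φ (α c * x) = c * φ x := fun c x => φ.map_smul c x
    have h1 := h.exp _ (hw φ.toAddMonoidHom hφ) x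
    rw [map_sub, map_sum, sub_eq_zero]
    refine h1.trans (Finset.sum_congr rfl fun s _ => ?_)
    rw [mul_comm (w s), hφ, mul_comm]
    rfl

theorem mapS_inf (α : K →ₐ[ℂ] E) (U U' : Submodule K (P → K)) :
    mapS α (U ⊓ U') = mapS α U ⊓ mapS α U' := by
  ext w
  simp only [Submodule.mem_inf, mem_mapS_iff, imp_and, forall_and]

theorem mapS_iInf (α : K →ₐ[ℂ] E) {ι : Type} (U : ι → Submodule K (P → K)) :
    mapS α (⨅ i, U i) = ⨅ i, mapS α (U i) := by
  ext w
  simp only [Submodule.mem_iInf, mem_mapS_iff]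
  exact ⟨fun h i φ hφ => h φ hφ i, fun h φ hφ i => h i φ hφ⟩

theorem mapS_comap (α : K →ₐ[ℂ] E) {P' : Type} [Fintype P'] (g : P → P')
    (U : Submodule K (P → K)) : mapS α (U.comap (LinearMap.funLeft K K g)) =
      (mapS α U).comap (LinearMap.funLeft E E g) := by
  ext w
  simp only [Submodule.mem_comap, mem_mapS_iff]
  rfl

theorem mapS_map (α : K →ₐ[ℂ] E) {P' : Type} [Fintype P'] (g : P' → P)
    (U : Submodule K (P → K)) : mapS α (U.map (LinearMap.funLeft K K g)) =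
      (mapS α U).map (LinearMap.funLeft E E g) := by
  refine le_antisymm (mapS_le ?_) ?_
  · rintro _ ⟨u, hu, rfl⟩
    exact ⟨_, mem_mapS α hu, rfl⟩
  · rw [Submodule.map_le_iff_le_comap]
    exact mapS_le fun u hu => mem_mapS α (Submodule.mem_map_of_mem hu)

/-! ### scaling -/

theorem mem_sclS {c w : P → K} : w ∈ sclS c U ↔ ∃ u ∈ U, (fun x => c x * u x) = w := Iff.rfl

theorem scl_mem {c u : P → K} (hu : u ∈ U) : (fun x => c x * u x) ∈ sclS c U := ⟨u, hu, rfl⟩

theorem mem_sclS' {c w : P → K} (hc : ∀ x, c x ≠ 0) :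
    w ∈ sclS c U ↔ (fun x => (c x)⁻¹ * w x) ∈ U := by
  refine ⟨?_, fun h => ⟨_, h, funext fun x => mul_inv_cancel_left₀ (hc x) _⟩⟩
  rintro ⟨u, hu, rfl⟩
  have : (fun x => (c x)⁻¹ * (c x * u x)) = u := funext fun x => inv_mul_cancel_left₀ (hc x) _
  exact this.symm ▸ hu

theorem sclS_sclS (c c' : P → K) (U : Submodule K (P → K)) :
    sclS c (sclS c' U) = sclS (fun x => c x * c' x) U := by
  ext w
  simp only [mem_sclS]
  constructor
  · rintro ⟨_, ⟨u, hu, rfl⟩, rfl⟩
    exact ⟨u, hu, funext fun x => mul_assoc _ _ _⟩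
  · rintro ⟨u, hu, rfl⟩
    exact ⟨_, ⟨u, hu, rfl⟩, funext fun x => (mul_assoc _ _ _).symm⟩

theorem sclS_one (U : Submodule K (P → K)) : sclS (fun _ => 1) U = U := by
  ext w
  rw [mem_sclS' fun _ => one_ne_zero]
  simp


theorem finrank_sclS {c : P → K} (hc : ∀ x, c x ≠ 0) (U : Submodule K (P → K)) :
    Module.finrank K (sclS c U) = Module.finrank K U :=
  (LinearEquiv.finrank_eq (Submodule.equivMapOfInjective _ (fun _ _ h =>
    funext fun x => mul_left_cancel₀ (hc x) (congrFun h x)) U)).symm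

theorem mapS_sclS (α : K →ₐ[ℂ] E) (c : P → K) (U : Submodule K (P → K)) :
    mapS α (sclS c U) = sclS (fun x => α (c x)) (mapS α U) := by
  refine le_antisymm (mapS_le ?_) ?_
  · rintro _ ⟨u, hu, rfl⟩
    exact ⟨_, mem_mapS α hu, funext fun x => (map_mul α _ _).symm⟩
  · rw [sclS, Submodule.map_le_iff_le_comap]
    refine mapS_le fun u hu => ?_
    have := mem_mapS α (scl_mem (c := c) hu)
    simp only [map_mul] at this
    exact this

theorem redS_sclS (p : Pl ℂ K ℂ E) {c : P → K} (hc : ∀ x, p.V.v (c x) = 1)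
    (U : Submodule K (P → K)) : redS p (sclS c U) = sclS (fun x => p.r (c x)) (redS p U) := by
  have h1 : ∀ x, c x ∈ p.V.1 := fun x => RZ.le_one_iff.1 (hc x).le
  refine le_antisymm (redS_le ?_) ?_
  · rintro _ ⟨u, hu, rfl⟩ hi
    have h2 : ∀ x, u x ∈ p.V.1 := fun x => by
      have := RZ.le_one_iff.2 (hi x)
      change p.V.v (c x * u x) ≤ 1 at this
      rw [map_mul, hc, one_mul] at this
      exact RZ.le_one_iff.1 this
    exact ⟨_, mem_redS p hu h2, funext fun x => (Pl.r_mul (h1 x) (h2 x)).symm⟩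
  · rw [sclS, Submodule.map_le_iff_le_comap]
    refine redS_le fun u hu hi => ?_
    have := mem_redS p (scl_mem (c := c) hu) fun x => mul_mem (h1 x) (hi x)
    simp only [Pl.r_mul (h1 _) (hi _)] at this
    exact this

end Crest.Agent.X262.Vb
end
end

-- ▼ part X262/Vb/Bas0

/-!
# Row 262, road B (helper90), part 3: lines, sizes, points
-/

set_option autoImplicit false
set_option linter.unusedSectionVars false

noncomputable section

namespace Crest.Agent.X262.Vb

open Crest.Agent.X277 Crest.Agent.X277.BD Crest.Agent.X277.BD.Cyc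
open Crest.Agent.X262.Hb
open Crest.Agent.X262.Node22 (scl chr vec pv_scl chr_ne mem_Nm_scl)
open Crest.Agent.X262.Tree87 (r_sum r_prod)

variable {J : Type} [Fintype J] [DecidableEq J] {io : J → Type} [∀ j, Fintype (io j)]
  [∀ j, DecidableEq (io j)] {A : Type} [Fintype A]
variable {P : Type} [Fintype P] {K E L : Type} [Field K] [Algebra ℂ K] [Field E] [Algebra ℂ E]
  [Field L] [Algebra ℂ L]

/-! ### sizes -/

section Sz

variable {u : P → K} {a : P → BD ℂ K} {V : RZ ℂ K}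

theorem sz_zero (a : P → BD ℂ K) : sz (0 : P → K) a = 0 := by
  unfold sz
  rw [dif_neg (by simp)]

theorem val_sz (hu : u ≠ 0) (a : P → BD ℂ K) (V : RZ ℂ K) : (sz u a).val V = nm a V u := by
  classical
  obtain ⟨j, hj⟩ := Function.ne_iff.1 hu
  have hne : (Finset.univ.filter fun x => u x ≠ 0).Nonempty := ⟨j, by simpa using hj⟩
  unfold sz
  rw [dif_pos (by convert hne)]
  refine le_antisymm ?_ ?_
  · refine Finset.sup'_induction (p := fun b : BD ℂ K => b.val V ≤ nm a V u) _ _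
      (fun b hb c hc => by rw [val_sup]; exact max_le hb hc) fun i hi => ?_
    rw [val_sub, val_pr (by simpa using hi)]
    exact div_le_nm a V u i
  · obtain ⟨i, hi, h⟩ := exists_nm a V hu
    have := (Finset.le_sup' (s := Finset.univ.filter fun x => u x ≠ 0)
      (fun x => pr ℂ (u x) - a x) (b := i) (by simpa using hi) : _ ≤ _) V
    rw [val_sub, val_pr hi, h, mul_div_cancel_right₀ _ (val_ne _ _)] at this
    convert this

theorem sz_eq_dst (hu : u ≠ 0) (a : P → BD ℂ K) : sz u a = dst a ⊥ u :=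
  ext' fun V => by rw [val_sz hu, val_dst_bot hu]

theorem nm_congr {P' : Type} [Fintype P'] {u' : P' → K} {a' : P' → BD ℂ K}
    (h : ∀ γ, (∀ i, V.v (u i) ≤ γ * (a i).val V) ↔ ∀ i, V.v (u' i) ≤ γ * (a' i).val V) :
    nm a V u = nm a' V u' :=
  le_antisymm (nm_le.2 ((h _).2 (le_nm a' V u'))) (nm_le.2 ((h _).1 (le_nm a V u)))

theorem nm_scl {c : P → K} (hc : ∀ x, c x ≠ 0) (a : P → BD ℂ K) (V : RZ ℂ K) (u : P → K) :
    nm (fun x => a x + pr ℂ (c x)) V (fun x => c x * u x) = nm a V u :=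
  nm_congr fun γ => forall_congr' fun i => by
    rw [map_mul, val_add, val_pr (hc i), mul_comm (V.v (c i)), ← mul_assoc,
      mul_le_mul_iff_left₀ (RZ.pos (hc i))]

theorem sz_scl {c : P → K} (hc : ∀ x, c x ≠ 0) (a : P → BD ℂ K) (u : P → K) :
    sz (fun x => c x * u x) (fun x => a x + pr ℂ (c x)) = sz u a := by
  by_cases hu : u = 0
  · subst hu
    rw [sz_zero, ← sz_zero fun x => a x + pr ℂ (c x)]
    congr 1
    funext x
    simp
  · have h1 : (fun x => c x * u x) ≠ 0 := fun h =>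
      hu (funext fun x => (mul_eq_zero.1 (congrFun h x)).resolve_left (hc x))
    exact ext' fun V => by rw [val_sz h1, val_sz hu, nm_scl hc]

theorem sz_smul (hu : u ≠ 0) {c : K} (hc : c ≠ 0) (a : P → BD ℂ K) :
    sz (c • u) a = pr ℂ c + sz u a :=
  ext' fun V => by rw [val_sz (smul_ne_zero hc hu), nm_smul, val_add, val_pr hc, val_sz hu]

/-- restriction of the size of a primitive vector -/
theorem res_sz (p : Pl ℂ K ℂ E) (ha : ∀ x, (a x).val p.V = 1) (hu : nm a p.V u = 1) :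
    p.res (sz u a) = sz (fun x => p.r (u x)) fun x => p.res (a x) := by
  have h0 : u ≠ 0 := fun h => by simp [h] at hu
  have hi : ∀ x, u x ∈ p.V.1 := fun x => RZ.le_one_iff.1 (by simpa [hu, ha] using le_nm a p.V u x)
  obtain ⟨x0, -, hx0⟩ := exists_nm a p.V h0
  rw [hu, ha, one_mul] at hx0
  have h1 : (fun x => p.r (u x)) ≠ 0 := fun h => Pl.r_ne_zero_iff.2 hx0 (congrFun h x0)
  have hs : (sz u a).val p.V = 1 := by rw [val_sz h0, hu]
  refine ext' fun W => ?_
  rw [val_sz h1]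
  have hg := v_gen (sz u a) (p.cm W)
  have hgu := Pl.unit_of_gen hs hg
  have key : ∀ x, (W.v (p.r (u x)) ≤ (p.res (sz u a)).val W * (p.res (a x)).val W) ∧
      ((p.cm W).v (u x) = (sz u a).val (p.cm W) * (a x).val (p.cm W) →
        W.v (p.r (u x)) = (p.res (sz u a)).val W * (p.res (a x)).val W) := fun x => by
    have hx := v_gen (a x) (p.cm W)
    have hxu := Pl.unit_of_gen (ha x) hx
    have hm : p.V.v ((sz u a).gen (p.cm W) * (a x).gen (p.cm W)) = 1 := by
      rw [map_mul, hgu, hxu, one_mul]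
    rw [Pl.val_res hs hg, Pl.val_res (ha x) hx, ← map_mul,
      ← Pl.r_mul (RZ.le_one_iff.1 hgu.le) (RZ.le_one_iff.1 hxu.le), ← Pl.v_le_iff (hi x) hm,
      map_mul, hg, hx]
    refine ⟨by rw [val_sz h0]; exact le_nm a _ u x, fun h => ?_⟩
    have h2 : (p.cm W).v (u x) = (p.cm W).v ((sz u a).gen (p.cm W) * (a x).gen (p.cm W)) := by
      rw [map_mul, hg, hx, h]
    exact (Pl.v_eq_iff ((RZ.eq_of_le (Pl.cm_le W) h2).trans hm) hm).1 h2
  refine le_antisymm ?_ (nm_le.2 fun x => (key x).1)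
  obtain ⟨x, -, hx⟩ := exists_nm a (p.cm W) h0
  have h3 := le_nm (fun x => p.res (a x)) W (fun x => p.r (u x)) x
  rw [(key x).2 (by rw [hx, val_sz h0])] at h3
  exact le_of_mul_le_mul_right h3 (val_pos _ _)

theorem res_hom (α : K →ₐ[ℂ] E) (a : BD ℂ K) : (LP.hom α).res a = pb α a := rfl

theorem val_hom (α : K →ₐ[ℂ] E) (a : BD ℂ K) : a.val (LP.hom α).V = 1 := val_top a


theorem pb_sz (α : K →ₐ[ℂ] E) (u : P → K) (a : P → BD ℂ K) :
    pb α (sz u a) = sz (fun x => α (u x)) fun x => pb α (a x) := by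
  by_cases hu : u = 0
  · subst hu
    rw [sz_zero, map_zero, ← sz_zero fun x => pb α (a x)]
    congr 1
    funext x
    simp
  · have := res_sz (LP.hom α).toPl (fun x => val_hom α (a x))
      ((val_sz hu a _).symm.trans (val_hom α _))
    simpa only [r_hom, res_hom] using this

end Sz

/-! ### lines -/

section Ln

variable {y : Pnt io K} {V : RZ ℂ K} {κ κ' : J → ℕ}

theorem le_ln (y : Pnt io K) (j : J) (i : io j) (V : RZ ℂ K) : V.v (y j i) ≤ (ln y j).val V :=
  mem_Sec_mxf (y j) i V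

theorem exists_ln (h : NZ y) (j : J) (V : RZ ℂ K) : ∃ i, V.v (y j i) = (ln y j).val V :=
  exists_val_mxf (h j) V



theorem Prim.nz (h : Prim V y) : NZ y := fun j =>
  (h j).2.imp fun _ hi => RZ.ne_zero_iff.1 (hi ▸ one_ne_zero)

theorem Prim.val_ln (h : Prim V y) (j : J) : (ln y j).val V = 1 := by
  obtain ⟨i, hi⟩ := exists_ln h.nz j V
  obtain ⟨i', hi'⟩ := (h j).2
  exact le_antisymm (hi ▸ RZ.le_one_iff.2 ((h j).1 i)) (hi' ▸ le_ln y j i' V)

theorem prim_of_val (h : NZ y) (h1 : ∀ j, (ln y j).val V = 1) : Prim V y := fun j =>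
  ⟨fun i => RZ.le_one_iff.1 (h1 j ▸ le_ln y j i V), h1 j ▸ exists_ln h j V⟩

theorem Prim.mono {W : RZ ℂ K} (h : Prim V y) (hle : V.1 ≤ W.1) : Prim W y := fun j =>
  ⟨fun i => hle ((h j).1 i), (h j).2.imp fun i hi => by
    simpa using RZ.eq_of_le hle (x := y j i) (y := 1) (by simpa using hi)⟩

theorem val_lw (κ : J → ℕ) (y : Pnt io K) (V : RZ ℂ K) :
    (lw κ y).val V = ∏ j, (ln y j).val V ^ κ j := by
  simp only [lw, val_sum, val_nsmul]

theorem Prim.val_lw (h : Prim V y) (κ : J → ℕ) : (lw κ y).val V = 1 := by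
  simp [Vb.val_lw, h.val_ln]

theorem lw_add (κ κ' : J → ℕ) (y : Pnt io K) : lw (κ + κ') y = lw κ y + lw κ' y := by
  simp only [lw, Pi.add_apply, add_nsmul, Finset.sum_add_distrib]


theorem lw_single (j : J) (y : Pnt io K) : lw (Pi.single j 1) y = ln y j := by
  rw [lw, Finset.sum_eq_single j (fun j' _ h => by simp [h]) (by simp)]
  simp

theorem ln_scl (h : NZ y) {c : J → K} (hc : ∀ j, c j ≠ 0) (j : J) :
    ln (scl c y) j = ln y j + pr ℂ (c j) := by
  refine (eq_mxf (fun i V => ?_) fun V => ?_).symm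
  · rw [val_add, val_pr (hc j), scl, map_mul, mul_comm]
    exact mul_le_mul_left (le_ln y j i V) _
  · obtain ⟨i, hi⟩ := exists_ln h j V
    exact ⟨i, by rw [val_add, val_pr (hc j), scl, map_mul, mul_comm, hi]⟩

theorem pr_chr {c : J → K} (hc : ∀ j, c j ≠ 0) (κ : J → ℕ) :
    pr ℂ (chr c κ) = ∑ j, κ j • pr ℂ (c j) := by
  rw [chr, pr_prod _ fun j _ => pow_ne_zero _ (hc j)]
  exact Finset.sum_congr rfl fun j _ => pr_pow (hc j) _

theorem lw_scl (h : NZ y) {c : J → K} (hc : ∀ j, c j ≠ 0) (κ : J → ℕ) :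
    lw κ (scl c y) = lw κ y + pr ℂ (chr c κ) := by
  simp only [lw, ln_scl h hc, pr_chr hc, nsmul_add, Finset.sum_add_distrib]

theorem prim_scl (h : NZ y) {c : J → K} (hc : ∀ j, V.v (c j) = ((ln y j).val V)⁻¹) :
    Prim V (scl c y) := by
  have h0 : ∀ j, c j ≠ 0 := fun j => RZ.ne_zero_iff.1 (hc j ▸ inv_ne_zero (val_ne _ _))
  exact prim_of_val (Node22.nz_scl h h0) fun j => by
    rw [ln_scl h h0, val_add, val_pr (h0 j), hc, mul_inv_cancel₀ (val_ne _ _)]

theorem Prim.v_eq {c : J → K} (h : NZ y) (hc : ∀ j, c j ≠ 0) (hp : Prim V (scl c y)) (j : J) :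
    V.v (c j) = ((ln y j).val V)⁻¹ := by
  have := hp.val_ln j
  rw [ln_scl h hc, val_add, val_pr (hc j)] at this
  exact eq_inv_of_mul_eq_one_right this

theorem Prim.nz_red {p : Pl ℂ K ℂ E} (h : Prim p.V y) : NZ (redP p y) := fun j =>
  (h j).2.imp fun _ hi => Pl.r_ne_zero_iff.2 hi

theorem ln_red {p : Pl ℂ K ℂ E} (h : Prim p.V y) (j : J) : ln (redP p y) j = p.res (ln y j) := by
  refine (eq_mxf (fun i => Pl.r_mem_Sec (h.val_ln j) (mem_Sec_mxf _ i)) fun W => ?_).symm
  obtain ⟨i, hi⟩ := exists_ln h.nz j (p.cm W)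
  exact ⟨i, (Pl.val_res (h.val_ln j) hi).symm⟩

theorem res_sum {p : Pl ℂ K ℂ E} {ι : Type} (s : Finset ι) {a : ι → BD ℂ K}
    (h : ∀ i ∈ s, (a i).val p.V = 1) : p.res (∑ i ∈ s, a i) = ∑ i ∈ s, p.res (a i) := by
  classical
  induction s using Finset.induction_on with
  | empty => simp
  | insert i s hi ih =>
    have h1 := fun j hj => h j (Finset.mem_insert_of_mem hj)
    rw [Finset.sum_insert hi, Finset.sum_insert hi, Pl.res_add (h i (Finset.mem_insert_self _ _))
      (by rw [val_sum]; exact Finset.prod_eq_one h1), ih h1]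

theorem lw_red {p : Pl ℂ K ℂ E} (h : Prim p.V y) (κ : J → ℕ) :
    lw κ (redP p y) = p.res (lw κ y) := by
  rw [lw, lw, res_sum _ fun j _ => by rw [val_nsmul, h.val_ln, one_pow]]
  exact Finset.sum_congr rfl fun j _ => by rw [Pl.res_nsmul (h.val_ln j), ln_red h]

/-- the image of a point under a field embedding -/
def mapP (α : K →ₐ[ℂ] E) (y : Pnt io K) : Pnt io E := fun j i => α (y j i)

theorem redP_hom (α : K →ₐ[ℂ] E) (y : Pnt io K) : redP (LP.hom α).toPl y = mapP α y :=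
  funext fun j => funext fun i => r_hom α (y j i)

theorem prim_hom (α : K →ₐ[ℂ] E) (h : NZ y) : Prim (LP.hom α).V y :=
  prim_of_val h fun _ => val_hom α _

theorem nz_map (α : K →ₐ[ℂ] E) : NZ (mapP α y) ↔ NZ y :=
  forall_congr' fun _ => exists_congr fun _ => map_ne_zero α

theorem ln_map (α : K →ₐ[ℂ] E) (y : Pnt io K) (j : J) : ln (mapP α y) j = pb α (ln y j) :=
  (pb_mxf α (y j)).symm

theorem lw_map (α : K →ₐ[ℂ] E) (y : Pnt io K) (κ : J → ℕ) : lw κ (mapP α y) = pb α (lw κ y) := by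
  simp only [lw, ln_map, map_sum, map_nsmul]

theorem prim_comp {p : LP K E} {q : LP E L} :
    Prim (p.comp q).V y ↔ Prim p.V y ∧ Prim q.V (redP p.toPl y) := by
  have key : ∀ x : K, (p.comp q).V.v x = 1 ↔ p.V.v x = 1 ∧ q.V.v (p.r x) = 1 := fun x => by
    rw [← Pl.r_ne_zero_iff (p := (p.comp q).toPl), ← Pl.r_ne_zero_iff (p := q.toPl)]
    refine ⟨fun h => ?_, fun h => by rw [r_comp p q (RZ.le_one_iff.1 h.1.le)]; exact h.2⟩
    have h1 := (mem_comp.1 (RZ.le_one_iff.1 (Pl.r_ne_zero_iff.1 h).le)).1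
    rw [r_comp p q h1] at h
    exact ⟨Pl.r_ne_zero_iff.1 fun h0 => h (by rw [h0, Pl.r_zero]), h⟩
  refine ⟨fun h => ⟨fun j => ⟨fun i => (mem_comp.1 ((h j).1 i)).1,
    (h j).2.imp fun i hi => ((key _).1 hi).1⟩, fun j => ⟨fun i => (mem_comp.1 ((h j).1 i)).2,
    (h j).2.imp fun i hi => ((key _).1 hi).2⟩⟩, fun h j =>
    ⟨fun i => mem_comp.2 ⟨(h.1 j).1 i, (h.2 j).1 i⟩, (h.2 j).2.imp fun i hi => (key _).2 ⟨?_, hi⟩⟩⟩
  exact Pl.r_ne_zero_iff.1 (RZ.ne_zero_iff.1 (hi ▸ one_ne_zero))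

theorem redP_comp (p : LP K E) (q : LP E L) (h : ∀ j i, y j i ∈ p.V.1) :
    redP (p.comp q).toPl y = redP q.toPl (redP p.toPl y) :=
  funext fun j => funext fun i => r_comp p q (h j i)

theorem redP_scl (p : Pl ℂ K ℂ E) {c : J → K} (hc : ∀ j, c j ∈ p.V.1) (h : ∀ j i, y j i ∈ p.V.1) :
    redP p (scl c y) = scl (fun j => p.r (c j)) (redP p y) :=
  funext fun j => funext fun i => Pl.r_mul (hc j) (h j i)

/-! ### values of polynomials -/

theorem pv_mem (h : ∀ j i, y j i ∈ V.1) (q : MvPolynomial (Vr io) ℂ) : pv y q ∈ V.1 :=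
  (Geo.r_aeval (lnr_plV V) (fun v : Vr io => h v.1 v.2) q).1

theorem r_pv {p : Pl ℂ K ℂ E} (hp : Lnr p) (h : ∀ j i, y j i ∈ p.V.1)
    (q : MvPolynomial (Vr io) ℂ) : p.r (pv y q) = pv (redP p y) q :=
  (Geo.r_aeval hp (fun v : Vr io => h v.1 v.2) q).2

theorem pv_map (α : K →ₐ[ℂ] E) (y : Pnt io K) (q : MvPolynomial (Vr io) ℂ) :
    pv (mapP α y) q = α (pv y q) := by
  rw [← redP_hom, ← r_pv (LP.hom α).lnr (fun _ _ => mem_hom α _), r_hom]

theorem v_pv_le (h : NZ y) {q : MvPolynomial (Vr io) ℂ} (hq : MH q κ) (V : RZ ℂ K) :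
    V.v (pv y q) ≤ (lw κ y).val V := by
  let c : J → K := fun j => ((ln y j).gen V)⁻¹
  have hc : ∀ j, c j ≠ 0 := fun j => inv_ne_zero (gen_ne _ _)
  have hp : Prim V (scl c y) := prim_scl h fun j => by rw [map_inv₀, v_gen]
  have h1 := RZ.le_one_iff.2 (pv_mem (fun j => (hp j).1) q)
  rw [← hp.val_lw κ, pv_scl hq, lw_scl h hc, val_add, val_pr (chr_ne hc κ), map_mul,
    mul_comm] at h1
  exact le_of_mul_le_mul_right h1 (RZ.pos (chr_ne hc κ))

variable (T : Tgt io A)

theorem on_map (α : K →ₐ[ℂ] E) : T.On (mapP α y) ↔ T.On y :=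
  forall_congr' fun a => by rw [pv_map, map_eq_zero]

theorem on_scl_iff {c : J → K} (hc : ∀ j, c j ≠ 0) : T.On (scl c y) ↔ T.On y :=
  forall_congr' fun a => by rw [pv_scl (T.hom a), mul_eq_zero, or_iff_right (chr_ne hc _)]

theorem on_red {p : Pl ℂ K ℂ E} (hp : Lnr p) (h : ∀ j i, y j i ∈ p.V.1) (hO : T.On y) :
    T.On (redP p y) := fun a => by rw [← r_pv hp h, hO a, Pl.r_zero]

theorem Nm_scl {c : J → K} (hc : ∀ j, c j ≠ 0) (y : Pnt io K) :
    T.Nm (scl c y) = sclS (fun a => chr c (T.k a)) (T.Nm y) := by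
  ext n
  rw [mem_sclS' fun a => chr_ne hc _, ← mem_Nm_scl T hc (y := y),
    show (fun a => chr c (T.k a) * ((chr c (T.k a))⁻¹ * n a)) = n from
      funext fun a => mul_inv_cancel_left₀ (chr_ne hc _) _]

theorem Nm_map (α : K →ₐ[ℂ] E) (y : Pnt io K) : T.Nm (mapP α y) = mapS α (T.Nm y) := by
  unfold Tgt.Nm Tgt.jac
  rw [Matrix.toLin'_apply', Matrix.toLin'_apply', Tree87.mapS_range]
  congr 2
  ext a v
  exact pv_map α y _


variable {T}


theorem Syz.reg_scl (S : Syz T) (c : ℕ) {g : J → K} (hg : ∀ j, g j ≠ 0) (h : S.Reg c y) :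
    S.Reg c (scl g y) := by
  refine ⟨by rw [Nm_scl T hg, finrank_sclS fun a => chr_ne hg _, h.1], fun σ hσ => ?_⟩
  rw [Nm_scl T hg, mem_sclS' fun a => chr_ne hg _]
  refine h.2 _ fun b => mul_left_cancel₀ (chr_ne hg (S.e b)) ?_
  rw [mul_zero, ← hσ b, Finset.mul_sum]
  refine Finset.sum_congr rfl fun a _ => ?_
  rcases S.hom b a with h0 | ⟨κ, h1, h2⟩
  · simp [h0, pv]
  · rw [pv_scl h2, ← h1]
    have h3 : chr g (κ + T.k a) = chr g κ * chr g (T.k a) := by
      simp only [chr, Pi.add_apply, pow_add, Finset.prod_mul_distrib]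
    rw [h3]
    field_simp [chr_ne hg (T.k a)]

/-- the syzygies kill the normal space at a point of the target -/
theorem Syz.rho_Nm (S : Syz T) (hO : T.On y) {σ : A → K} (hσ : σ ∈ T.Nm y) (b : Fin S.r) :
    ∑ a, pv y (S.ρ b a) * σ a = 0 := by
  obtain ⟨w, rfl⟩ := hσ
  have h1 : ∀ v, ∑ a, pv y (S.ρ b a) * pv y (MvPolynomial.pderiv v (T.F a)) = 0 := fun v => by
    have h2 := congrArg (fun q => pv y (MvPolynomial.pderiv v q)) (S.syz b)
    simp only [map_sum, Derivation.leibniz, smul_eq_mul, pv, map_add, map_mul, map_zero] at h2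
    refine Eq.trans (Finset.sum_congr rfl fun a _ => ?_) h2
    rw [show MvPolynomial.aeval (fun v : Vr io => y v.1 v.2) (T.F a) = 0 from hO a, zero_mul,
      add_zero]
    rfl
  simp only [Node22.jac_apply, Finset.mul_sum]
  rw [Finset.sum_comm]
  refine Finset.sum_eq_zero fun v _ => ?_
  simp only [← mul_assoc, ← Finset.sum_mul]
  exact mul_eq_zero_of_left (h1 v) _


end Ln

end Crest.Agent.X262.Vb
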